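import Mathlib

/-! Shared definitions for P101 (characters of central sequence algebras). -/

noncomputable section

open Filter Topology
open scoped BoundedContinuousFunction

namespace Vale.Agent.P101

universe u

/-- A family of unital copies of B in D with elementwise commuting ranges. -/
structure Copies (B D : Type*) [CStarAlgebra B] [CStarAlgebra D] (ι : Type*) where
  hom : ι → B →⋆ₐ[ℂ] D
  comm : ∀ i j, i ≠ j → ∀ a b, Commute (hom i a) (hom j b)

/-- The two-sided ideal generated by S is everything. -/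
def Full {D : Type*} [Ring D] (S : Set D) : Prop := (1 : D) ∈ TwoSidedIdeal.span S

/-- Commutators with finitely many self-adjoint elements generate everything. -/
def HasWitness (B : Type*) [CStarAlgebra B] : Prop :=
  ∃ (L : ℕ) (b : Fin L → B), (∀ l, IsSelfAdjoint (b l)) ∧
    Full {x | ∃ l d, b l * d - d * b l = x}

/-- One self-adjoint element whose commutators generate everything. -/
def HasNonScalar (D : Type*) [CStarAlgebra D] : Prop :=
  ∃ T : D, IsSelfAdjoint T ∧ Full {x | ∃ d, T * d - d * T = x}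

/-- Two orthogonal full self-adjoint elements. -/
def HasSplit (D : Type*) [CStarAlgebra D] : Prop :=
  ∃ e e' : D, IsSelfAdjoint e ∧ IsSelfAdjoint e' ∧ e * e' = 0 ∧ Full {e} ∧ Full {e' * e'}

/-- A full element of square zero. -/
def HasNil (D : Type*) [CStarAlgebra D] : Prop := ∃ x : D, x * x = 0 ∧ Full {x}

/-- The Rordam-Winter relations for a unital homomorphism from the dimension drop algebra
`Z_{2,3}`: an order zero map of the two by two matrices (given by its value c at the matrix unit
e12, with e and f its values at e11 and e22) and v with v*v = 1 - e - f and e v = v. -/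
def Comparison (D : Type*) [CStarAlgebra D] : Prop :=
  ∃ c e f v r s : D, star r * r = e ∧ star s * s = f ∧ c * c = 0 ∧
    c * star c = e * e ∧ star c * c = f * f ∧ star v * v = 1 - e - f ∧ e * v = v

variable {A : Type u} [CStarAlgebra A]

/-- A bounded sequence that is null along ω. -/
def IsNull (ω : Ultrafilter ℕ) (a : ℕ →ᵇ A) : Prop :=
  Tendsto (fun n => ‖a n‖) (ω : Filter ℕ) (𝓝 0)

/-- A bounded sequence that asymptotically commutes with every element along ω. -/
def IsCentral (ω : Ultrafilter ℕ) (a : ℕ →ᵇ A) : Prop :=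
  ∀ b : A, Tendsto (fun n => ‖a n * b - b * a n‖) (ω : Filter ℕ) (𝓝 0)

/-- A character of the central sequence algebra, as a functional on central sequences. -/
structure CentralChar (ω : Ultrafilter ℕ) (A : Type u) [CStarAlgebra A] where
  val : (ℕ →ᵇ A) → ℂ
  map_one : val 1 = 1
  map_add : ∀ a b, IsCentral ω a → IsCentral ω b → val (a + b) = val a + val b
  map_mul : ∀ a b, IsCentral ω a → IsCentral ω b → val (a * b) = val a * val b
  map_smul : ∀ (z : ℂ) a, IsCentral ω a → val (z • a) = z * val a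
  map_star : ∀ a, IsCentral ω a → val (star a) = starRingEnd ℂ (val a)
  map_null : ∀ a, IsCentral ω a → IsNull ω a → val a = 0

/-- The relations of `Comparison` in the central sequence algebra, on representatives. -/
def CentralComparison (ω : Ultrafilter ℕ) (A : Type u) [CStarAlgebra A] : Prop :=
  ∃ c e f v r s : ℕ →ᵇ A,
    IsCentral ω c ∧ IsCentral ω e ∧ IsCentral ω f ∧ IsCentral ω v ∧ IsCentral ω r ∧
    IsCentral ω s ∧
    IsNull ω (star r * r - e) ∧ IsNull ω (star s * s - f) ∧ IsNull ω (c * c) ∧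
    IsNull ω (c * star c - e * e) ∧ IsNull ω (star c * c - f * f) ∧
    IsNull ω (star v * v - (1 - e - f)) ∧ IsNull ω (e * v - v)

/-! ## Module interfaces -/

/-- Module Colour. -/
def ColourStatement : Prop :=
  ∀ L : ℕ, ∃ (n : ℕ) (col : Fin n → Fin n → Fin (L + 1)), (∀ x y, col x y = col y x) ∧
    ∀ f : Fin n → Fin (L + 1), ∃ x y, x < y ∧ f x = col x y ∧ f y = col x y

/-- Stage 1. -/
def Stage1 : Prop :=
  ∀ (B : Type u) [CStarAlgebra B], HasWitness B → ∃ n : ℕ,
    ∀ (D : Type u) [CStarAlgebra D], Copies B D (Fin n) → HasNonScalar D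

/-- Stage 2. -/
def Stage2 : Prop :=
  ∀ (B : Type u) [CStarAlgebra B], HasNonScalar B → ∃ n : ℕ,
    ∀ (D : Type u) [CStarAlgebra D], Copies B D (Fin n) → HasSplit D

/-- Stage 3. -/
def Stage3 : Prop :=
  ∀ (B : Type u) [CStarAlgebra B], HasSplit B → ∃ n : ℕ,
    ∀ (D : Type u) [CStarAlgebra D], Copies B D (Fin n) → HasNil D

/-- Stage 4. -/
def Stage4 : Prop :=
  ∀ (B : Type u) [CStarAlgebra B], HasNil B → ∃ n : ℕ,
    ∀ (D : Type u) [CStarAlgebra D], Copies B D (Fin n) → Comparison D

/-- Regrouping infinitely many copies of B into infinitely many copies of an algebra generated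
by n copies. -/
def Regroup : Prop :=
  ∀ (B F : Type u) [CStarAlgebra B] [CStarAlgebra F] (n : ℕ), Copies B F ℕ →
    ∃ (B' : Type u) (_ : CStarAlgebra B'),
      Nonempty (Copies B B' (Fin n)) ∧ Nonempty (Copies B' F ℕ)

/-- The central sequence algebra: no character gives infinitely many commuting copies of an
algebra with a witness, and relations there give relations on representatives. -/
def CentralStatement : Prop :=
  ∀ (A : Type u) [CStarAlgebra A] [TopologicalSpace.SeparableSpace A] (ω : Ultrafilter ℕ),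
    (ω : Filter ℕ) ≤ cofinite → IsEmpty (CentralChar ω A) →
      ∃ (B F : Type u) (_ : CStarAlgebra B) (_ : CStarAlgebra F),
        HasWitness B ∧ Nonempty (Copies B F ℕ) ∧ (Comparison F → CentralComparison ω A)

/-- The main theorem. -/
def Final : Prop :=
  ∀ (A : Type u) [CStarAlgebra A] [TopologicalSpace.SeparableSpace A] (ω : Ultrafilter ℕ),
    (ω : Filter ℕ) ≤ cofinite → IsEmpty (CentralChar ω A) → CentralComparison ω A

/-- Assembly from the module statements. -/
theorem final_of (h1 : Stage1.{u}) (h2 : Stage2.{u}) (h3 : Stage3.{u}) (h4 : Stage4.{u})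
    (hr : Regroup.{u}) (hc : CentralStatement.{u}) : Final.{u} := by
  intro A _ _ ω hω he
  obtain ⟨B, F, _, _, hB, ⟨cB⟩, hF⟩ := hc A ω hω he
  obtain ⟨n1, k1⟩ := h1 B hB
  obtain ⟨B1, _, ⟨d1⟩, ⟨c1⟩⟩ := hr B F n1 cB
  obtain ⟨n2, k2⟩ := h2 B1 (k1 B1 d1)
  obtain ⟨B2, _, ⟨d2⟩, ⟨c2⟩⟩ := hr B1 F n2 c1
  obtain ⟨n3, k3⟩ := h3 B2 (k2 B2 d2)
  obtain ⟨B3, _, ⟨d3⟩, ⟨c3⟩⟩ := hr B2 F n3 c2
  obtain ⟨n4, k4⟩ := h4 B3 (k3 B3 d3)
  exact hF (k4 F ⟨fun i => c3.hom i.1, fun i j h => c3.comm _ _ fun e => h (Fin.ext e)⟩)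

end Vale.Agent.P101
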