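import Mathlib
import Vale.Agent.P101.Defs

/-!
A C*-algebra without characters has a witness: a finitely generated subalgebra in which the
commutators with finitely many self-adjoint elements generate everything.
-/

noncomputable section

open Filter Topology
open scoped ComplexStarModule

namespace Vale.Agent.P101

universe u

variable {R : Type u} [CStarAlgebra R]

/-- If the commutators generate a proper ideal there is a character. -/
lemma exists_char_of_not_full (h : ¬ Full {x : R | ∃ a b, a * b - b * a = x}) :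
    Nonempty (R →⋆ₐ[ℂ] ℂ) := by
  set J := TwoSidedIdeal.span {x : R | ∃ a b, a * b - b * a = x}
  have hJ : J.asIdeal ≠ ⊤ := fun e => h (by
    have : (1 : R) ∈ J.asIdeal := e ▸ Submodule.mem_top
    exact TwoSidedIdeal.mem_asIdeal.1 this)
  obtain ⟨M, hM, hJM⟩ := Ideal.exists_le_maximal _ hJ
  have hcomm : ∀ a b : R, a * b - b * a ∈ M := fun a b =>
    hJM (TwoSidedIdeal.mem_asIdeal.2 (TwoSidedIdeal.subset_span ⟨a, b, rfl⟩))
  have : M.IsTwoSided := ⟨fun {a} b ha => by
    have := M.add_mem (M.mul_mem_left b ha) (hcomm a b)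
    simpa using this⟩
  have hcl : IsClosed (M : Set R) := by
    have hne : (M.closure : Ideal R) ≠ ⊤ := fun e => by
      have h1 : (1 : R) ∈ closure (M : Set R) := by
        rw [← Ideal.coe_closure, e]; trivial
      obtain ⟨y, hy, hyM⟩ := mem_closure_iff_nhds.1 h1 _
        (Units.isOpen.mem_nhds (isUnit_one (M := R)))
      exact hM.ne_top (Ideal.eq_top_of_isUnit_mem M hyM hy)
    have := hM.eq_of_le hne subset_closure
    exact closure_eq_iff_isClosed.1 (by rw [← Ideal.coe_closure, ← this])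
  have hcl' : IsClosed (M : Set R) := hcl
  let Q := R ⧸ M
  let _ : NormedRing Q :=
    { (inferInstance : Ring Q), Submodule.Quotient.normedAddCommGroup M with
      norm_mul_le := fun x y => le_of_forall_pos_le_add fun ε hε => by
        have := ((Metric.nhds_basis_ball.prod_nhds Metric.nhds_basis_ball).tendsto_iff
          Metric.nhds_basis_ball).mp (continuous_mul.tendsto (‖x‖, ‖y‖)) ε hε
        simp only [Set.mem_prod, Metric.mem_ball, and_imp, Prod.forall, Prod.exists] at this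
        obtain ⟨ε₁, ε₂, ⟨h₁, h₂⟩, hd⟩ := this
        obtain ⟨⟨a, rfl, ha⟩, ⟨b, rfl, hb⟩⟩ := Submodule.Quotient.norm_mk_lt x h₁,
          Submodule.Quotient.norm_mk_lt y h₂
        simp only [dist, abs_sub_lt_iff] at hd
        specialize hd ‖a‖ ‖b‖ ⟨by linarith, by linarith [Submodule.Quotient.norm_mk_le M a]⟩
          ⟨by linarith, by linarith [Submodule.Quotient.norm_mk_le M b]⟩
        calc _ ≤ ‖a‖ * ‖b‖ := (Submodule.Quotient.norm_mk_le M (a * b)).trans (norm_mul_le a b)
          _ ≤ _ := (sub_lt_iff_lt_add'.mp hd.1).le }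
  let _ : NormedAlgebra ℂ Q :=
    { (inferInstance : Algebra ℂ Q) with
      norm_smul_le := fun z x => norm_smul_le z x }
  have : CompleteSpace Q := Submodule.Quotient.completeSpace M
  have hone : (1 : Q) ≠ 0 := fun e => hM.ne_top
    ((Ideal.eq_top_iff_one M).2 (Ideal.Quotient.eq_zero_iff_mem.1 e))
  have hunit : ∀ {q : Q}, IsUnit q ↔ q ≠ 0 := by
    intro q
    refine ⟨fun hq e => hone ?_, fun hq => ?_⟩
    · obtain ⟨w, hw⟩ := hq.exists_left_inv
      rw [← hw, e, mul_zero]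
    · obtain ⟨a, rfl⟩ := Ideal.Quotient.mk_surjective q
      have hc : ∀ y : R, Ideal.Quotient.mk M a * Ideal.Quotient.mk M y
          = Ideal.Quotient.mk M y * Ideal.Quotient.mk M a := fun y => by
        rw [← map_mul, ← map_mul, Ideal.Quotient.eq]; exact hcomm a y
      obtain ⟨y, i, hi, hyi⟩ := hM.exists_inv (fun e => hq (Ideal.Quotient.eq_zero_iff_mem.2 e))
      have h1 : Ideal.Quotient.mk M y * Ideal.Quotient.mk M a = 1 := by
        rw [← map_mul, ← map_one (Ideal.Quotient.mk M), Ideal.Quotient.eq]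
        rw [show y * a - 1 = -i by rw [← hyi]; abel]
        exact M.neg_mem hi
      exact ⟨⟨_, _, (hc y).trans h1, h1⟩, rfl⟩
  let φ : R →ₐ[ℂ] ℂ :=
    (NormedRing.algEquivComplexOfComplete hunit).symm.toAlgHom.comp (Ideal.Quotient.mkₐ ℂ M)
  exact ⟨{ φ with map_star' := fun a => map_star φ a }⟩

/-- A full commutator set has a finite self-adjoint witness in a finitely generated subalgebra. -/
lemma exists_finite_witness (h : Full {x : R | ∃ a b, a * b - b * a = x}) :
    ∃ G : Finset R, ∀ S : StarSubalgebra ℂ R, (G : Set R) ⊆ S → ∀ [IsClosed (S : Set R)],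
      HasWitness S := by
  classical
  let P : R → Prop := fun z => ∃ G : Finset R, ∀ S : StarSubalgebra ℂ R, (G : Set R) ⊆ S →
    ∃ zS : S, (zS : R) = z ∧ zS ∈ TwoSidedIdeal.span
      {x : S | ∃ b d : S, IsSelfAdjoint (b : R) ∧ (b : R) ∈ G ∧ b * d - d * b = x}
  have mono : ∀ (S : StarSubalgebra ℂ R) {G G' : Finset R}, G ⊆ G' →
      TwoSidedIdeal.span {x : S | ∃ b d : S, IsSelfAdjoint (b : R) ∧ (b : R) ∈ G ∧ b * d - d * b = x}
      ≤ TwoSidedIdeal.span
        {x : S | ∃ b d : S, IsSelfAdjoint (b : R) ∧ (b : R) ∈ G' ∧ b * d - d * b = x} :=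
    fun S G G' hG => TwoSidedIdeal.span_mono fun x ⟨b, d, hb, hbG, hx⟩ => ⟨b, d, hb, hG hbG, hx⟩
  have hadd : ∀ {x y}, P x → P y → P (x + y) := by
    rintro x y ⟨G, hG⟩ ⟨G', hG'⟩
    refine ⟨G ∪ G', fun S hS => ?_⟩
    obtain ⟨a, rfl, ha⟩ := hG S ((Finset.coe_subset.2 Finset.subset_union_left).trans hS)
    obtain ⟨b, rfl, hb⟩ := hG' S ((Finset.coe_subset.2 Finset.subset_union_right).trans hS)
    exact ⟨a + b, rfl, TwoSidedIdeal.add_mem _ (mono S Finset.subset_union_left ha)
      (mono S Finset.subset_union_right hb)⟩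
  have hmul : ∀ {r x}, P x → P (r * x) ∧ P (x * r) := by
    rintro r x ⟨G, hG⟩
    constructor
    all_goals
      refine ⟨insert r G, fun S hS => ?_⟩
      obtain ⟨a, rfl, ha⟩ := hG S ((Finset.coe_subset.2 (Finset.subset_insert r G)).trans hS)
      have hr : r ∈ S := hS (Finset.mem_insert_self r G)
    · exact ⟨⟨r, hr⟩ * a, rfl,
        TwoSidedIdeal.mul_mem_left _ _ _ (mono S (Finset.subset_insert r G) ha)⟩
    · exact ⟨a * ⟨r, hr⟩, rfl,
        TwoSidedIdeal.mul_mem_right _ _ _ (mono S (Finset.subset_insert r G) ha)⟩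
  have hzero : P 0 := ⟨∅, fun S _ => ⟨0, rfl, TwoSidedIdeal.zero_mem _⟩⟩
  let I : TwoSidedIdeal R := TwoSidedIdeal.mk' {z | P z} hzero hadd
    (fun {x} hx => show P (-x) by rw [← neg_one_mul]; exact (hmul hx).1)
    (fun hy => (hmul hy).1) (fun hx => (hmul hx).2)
  have key : ∀ b d : R, IsSelfAdjoint b → P (b * d - d * b) := fun b d hb =>
    ⟨{b, d}, fun S hS => ⟨⟨b, hS (by simp)⟩ * ⟨d, hS (by simp)⟩ - ⟨d, hS (by simp)⟩ * ⟨b, hS (by simp)⟩,
      rfl, TwoSidedIdeal.subset_span ⟨⟨b, hS (by simp)⟩, ⟨d, hS (by simp)⟩, hb, by simp, rfl⟩⟩⟩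
  have h1 : P 1 := by
    have hsub : {x : R | ∃ a b, a * b - b * a = x} ⊆ (I : Set R) := by
      rintro x ⟨a, b, rfl⟩
      rw [SetLike.mem_coe]
      refine (TwoSidedIdeal.mem_mk' _ _ _ _ _ _ _).2 ?_
      have he : a * b - b * a = ((ℜ a : R) * b - b * (ℜ a : R))
          + ((ℑ a : R) * (Complex.I • b) - (Complex.I • b) * (ℑ a : R)) := by
        conv_lhs => rw [← realPart_add_I_smul_imaginaryPart a]
        simp only [add_mul, mul_add, smul_mul_assoc, mul_smul_comm]
        abel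
      rw [Set.mem_ofPred_eq, he]
      exact hadd (key _ _ (ℜ a).2) (key _ _ (ℑ a).2)
    exact (TwoSidedIdeal.mem_mk' {z | P z} _ _ _ _ _ _).1 (TwoSidedIdeal.mem_span_iff.1 h I hsub)
  obtain ⟨G, hG⟩ := h1
  refine ⟨G, fun S hS _ => ?_⟩
  obtain ⟨z, hz, hzmem⟩ := hG S hS
  obtain rfl : z = 1 := Subtype.ext hz
  let T := G.filter fun b => IsSelfAdjoint b
  let e := T.equivFin
  refine ⟨T.card, fun l => ⟨(e.symm l).1, hS (Finset.filter_subset _ _ (e.symm l).2)⟩,
    fun l => Subtype.ext (Finset.mem_filter.1 (e.symm l).2).2, ?_⟩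
  refine TwoSidedIdeal.span_mono ?_ hzmem
  rintro x ⟨b, d, hb, hbG, rfl⟩
  refine ⟨e ⟨(b : R), Finset.mem_filter.2 ⟨hbG, hb⟩⟩, d, ?_⟩
  simp

end Vale.Agent.P101
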