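import Mathlib
import Vale.Agent.P101.Defs

/-!
The central sequence algebra as a C*-algebra: the separation quotient of the central sequences
for the seminorm given by the limit of the norms along the ultrafilter.
-/

noncomputable section

open Filter Topology
open scoped BoundedContinuousFunction

namespace Vale.Agent.P101

universe u

variable {A : Type u} [CStarAlgebra A] (ω : Ultrafilter ℕ)

/-- The constant sequence. -/
def cst (b : A) : ℕ →ᵇ A := BoundedContinuousFunction.const ℕ b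

/-- The limit of the norms along the ultrafilter. -/
def nrm (a : ℕ →ᵇ A) : ℝ := limUnder (ω : Filter ℕ) fun n => ‖a n‖

variable {ω}

lemma tendsto_nrm (a : ℕ →ᵇ A) :
    Tendsto (fun n => ‖a n‖) (ω : Filter ℕ) (𝓝 (nrm ω a)) := by
  obtain ⟨x, -, hx⟩ := (isCompact_Icc (a := (0 : ℝ)) (b := ‖a‖)).ultrafilter_le_nhds
    (ω.map fun n => ‖a n‖) (by
      rw [le_principal_iff, Ultrafilter.coe_map, mem_map]
      exact Filter.univ_mem' fun n => ⟨norm_nonneg _, a.norm_coe_le_norm n⟩)
  have h : Tendsto (fun n => ‖a n‖) (ω : Filter ℕ) (𝓝 x) := hx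
  unfold nrm
  rwa [h.limUnder_eq]

lemma nrm_nonneg (a : ℕ →ᵇ A) : 0 ≤ nrm ω a :=
  ge_of_tendsto' (tendsto_nrm a) fun _ => norm_nonneg _

lemma nrm_le (a : ℕ →ᵇ A) : nrm ω a ≤ ‖a‖ :=
  le_of_tendsto' (tendsto_nrm a) fun n => a.norm_coe_le_norm n

lemma nrm_add (a b : ℕ →ᵇ A) : nrm ω (a + b) ≤ nrm ω a + nrm ω b :=
  le_of_tendsto_of_tendsto' (tendsto_nrm _) ((tendsto_nrm a).add (tendsto_nrm b))
    fun n => norm_add_le (a n) (b n)

lemma nrm_mul (a b : ℕ →ᵇ A) : nrm ω (a * b) ≤ nrm ω a * nrm ω b :=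
  le_of_tendsto_of_tendsto' (tendsto_nrm _) ((tendsto_nrm a).mul (tendsto_nrm b))
    fun n => norm_mul_le (a n) (b n)

lemma nrm_smul (z : ℂ) (a : ℕ →ᵇ A) : nrm ω (z • a) = ‖z‖ * nrm ω a :=
  tendsto_nhds_unique (tendsto_nrm _) (((tendsto_nrm a).const_mul ‖z‖).congr fun n => by
    simp [norm_smul])

lemma nrm_star_mul (a : ℕ →ᵇ A) : nrm ω (star a * a) = nrm ω a * nrm ω a :=
  tendsto_nhds_unique (tendsto_nrm _) (((tendsto_nrm a).mul (tendsto_nrm a)).congr fun n => by
    simp [CStarRing.norm_star_mul_self])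

lemma nrm_zero : nrm ω (0 : ℕ →ᵇ A) = 0 :=
  tendsto_nhds_unique (tendsto_nrm _) (tendsto_const_nhds.congr fun n => by simp)

lemma nrm_neg (a : ℕ →ᵇ A) : nrm ω (-a) = nrm ω a :=
  tendsto_nhds_unique (tendsto_nrm _) ((tendsto_nrm a).congr fun n => by simp)

lemma isNull_iff (a : ℕ →ᵇ A) : IsNull ω a ↔ nrm ω a = 0 :=
  ⟨fun h => tendsto_nhds_unique (tendsto_nrm a) h, fun h => by
    have := tendsto_nrm (ω := ω) a
    rwa [h] at this⟩

lemma continuous_nrm : Continuous (nrm ω : (ℕ →ᵇ A) → ℝ) := by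
  refine (LipschitzWith.of_le_add fun a b => ?_).continuous
  have h := nrm_add (ω := ω) (a - b) b
  rw [sub_add_cancel] at h
  rw [dist_eq_norm]
  linarith [nrm_le (ω := ω) (a - b)]

lemma isCentral_iff (a : ℕ →ᵇ A) :
    IsCentral ω a ↔ ∀ b : A, nrm ω (a * cst b - cst b * a) = 0 :=
  forall_congr' fun b => ⟨fun h => (isNull_iff _).1 (by simpa [IsNull, cst] using h),
    fun h => by simpa [IsNull, cst] using (isNull_iff _).2 h⟩

lemma IsCentral.of_null_sub {a b : ℕ →ᵇ A} (ha : IsCentral ω a) (h : IsNull ω (b - a)) :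
    IsCentral ω b := fun c => by
  refine squeeze_zero (g := fun n => ‖a n * c - c * a n‖ + 2 * ‖c‖ * ‖(b - a) n‖)
    (fun n => norm_nonneg _) (fun n => ?_) ?_
  · calc ‖b n * c - c * b n‖
        = ‖(a n * c - c * a n) + ((b n - a n) * c - c * (b n - a n))‖ := by
          congr 1; noncomm_ring
      _ ≤ ‖a n * c - c * a n‖ + (‖(b n - a n) * c‖ + ‖c * (b n - a n)‖) :=
          (norm_add_le _ _).trans (add_le_add le_rfl (norm_sub_le _ _))
      _ ≤ ‖a n * c - c * a n‖ + (‖b n - a n‖ * ‖c‖ + ‖c‖ * ‖b n - a n‖) := by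
          gcongr <;> exact norm_mul_le _ _
      _ = ‖a n * c - c * a n‖ + 2 * ‖c‖ * ‖(b - a) n‖ := by
          simp only [BoundedContinuousFunction.sub_apply]; ring
  · simpa using (ha c).add (Tendsto.const_mul (2 * ‖c‖) h)

variable (ω)

/-- The central sequences. -/
def centralAlg (A : Type u) [CStarAlgebra A] : StarSubalgebra ℂ (ℕ →ᵇ A) where
  carrier := {a | IsCentral ω a}
  mul_mem' {a a'} ha ha' b := by
    refine squeeze_zero (g := fun n => ‖a‖ * ‖a' n * b - b * a' n‖ + ‖a n * b - b * a n‖ * ‖a'‖)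
      (fun n => norm_nonneg _) (fun n => ?_) ?_
    · calc ‖(a * a') n * b - b * (a * a') n‖
          = ‖a n * (a' n * b - b * a' n) + (a n * b - b * a n) * a' n‖ := by
            simp only [BoundedContinuousFunction.mul_apply]; congr 1; noncomm_ring
        _ ≤ ‖a n‖ * ‖a' n * b - b * a' n‖ + ‖a n * b - b * a n‖ * ‖a' n‖ :=
            (norm_add_le _ _).trans (add_le_add (norm_mul_le _ _) (norm_mul_le _ _))
        _ ≤ _ := by gcongr <;> exact BoundedContinuousFunction.norm_coe_le_norm _ n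
    · simpa using (Tendsto.const_mul ‖a‖ (ha' b)).add (Tendsto.mul_const ‖a'‖ (ha b))
  one_mem' b := by simp
  add_mem' {a a'} ha ha' b := by
    refine squeeze_zero (g := fun n => ‖a n * b - b * a n‖ + ‖a' n * b - b * a' n‖)
      (fun n => norm_nonneg _) (fun n => ?_) (by simpa using (ha b).add (ha' b))
    refine le_of_eq_of_le ?_ (norm_add_le _ _)
    simp only [BoundedContinuousFunction.add_apply]; congr 1; noncomm_ring
  zero_mem' b := by simp
  algebraMap_mem' z b := by
    simp [BoundedContinuousFunction.algebraMap_apply]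
  star_mem' {a} ha b := by
    refine (ha (star b)).congr fun n => ?_
    rw [← norm_star (a n * star b - star b * a n), norm_sub_rev]
    simp [star_sub, star_mul]

lemma mem_centralAlg {a : ℕ →ᵇ A} : a ∈ centralAlg ω A ↔ IsCentral ω a := Iff.rfl

instance isClosed_centralAlg : IsClosed (centralAlg ω A : Set (ℕ →ᵇ A)) := by
  have : (centralAlg ω A : Set (ℕ →ᵇ A))
      = ⋂ b : A, {a | nrm ω (a * cst b - cst b * a) = 0} := by
    ext a; simp [SetLike.mem_coe, mem_centralAlg, isCentral_iff]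
  rw [this]
  exact isClosed_iInter fun b => isClosed_eq (continuous_nrm.comp (by fun_prop)) continuous_const

/-- Central sequences with the seminorm along the ultrafilter. -/
def Pre (A : Type u) [CStarAlgebra A] : Type u := ↥(centralAlg ω A)

instance : Ring (Pre ω A) := inferInstanceAs (Ring ↥(centralAlg ω A))
instance : StarRing (Pre ω A) := inferInstanceAs (StarRing ↥(centralAlg ω A))
instance : Algebra ℂ (Pre ω A) := inferInstanceAs (Algebra ℂ ↥(centralAlg ω A))
instance : StarModule ℂ (Pre ω A) := inferInstanceAs (StarModule ℂ ↥(centralAlg ω A))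

/-- The sequence underlying an element of `Pre`. -/
def Pre.seq (a : Pre ω A) : ℕ →ᵇ A := Subtype.val a

/-- The seminorm on `Pre`. -/
def preSeminorm (A : Type u) [CStarAlgebra A] : AddGroupSeminorm (Pre ω A) where
  toFun a := nrm ω (Pre.seq ω a)
  map_zero' := nrm_zero
  add_le' _ _ := nrm_add _ _
  neg' _ := nrm_neg _

instance : SeminormedAddCommGroup (Pre ω A) := (preSeminorm ω A).toSeminormedAddCommGroup

lemma norm_pre (a : Pre ω A) : ‖a‖ = nrm ω (Pre.seq ω a) := rfl

instance : SeminormedRing (Pre ω A) where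
  __ : Ring (Pre ω A) := inferInstance
  __ : SeminormedAddCommGroup (Pre ω A) := inferInstance
  norm_mul_le _ _ := nrm_mul _ _

instance : NormedAlgebra ℂ (Pre ω A) where
  __ : Algebra ℂ (Pre ω A) := inferInstance
  norm_smul_le z _ := le_of_eq (nrm_smul z _)

lemma norm_star_pre (a : Pre ω A) : ‖star a‖ = ‖a‖ :=
  tendsto_nhds_unique (tendsto_nrm _) ((tendsto_nrm (Pre.seq ω a)).congr fun n => by
    exact (norm_star _).symm)

instance : NormedStarGroup (Pre ω A) := ⟨fun a => (norm_star_pre ω a).le⟩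

/-- The central sequence algebra. -/
abbrev CQ (A : Type u) [CStarAlgebra A] : Type u := SeparationQuotient (Pre ω A)

instance : Star (CQ ω A) :=
  ⟨SeparationQuotient.lift (fun a => SeparationQuotient.mk (star a)) fun _ _ h =>
    SeparationQuotient.mk_eq_mk.2 (h.map continuous_star)⟩

lemma star_mk (a : Pre ω A) :
    star (SeparationQuotient.mk a) = SeparationQuotient.mk (star a) := rfl

instance : StarRing (CQ ω A) where
  star_involutive := by
    rintro ⟨a⟩
    show SeparationQuotient.mk (star (star a)) = _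
    rw [star_star]; rfl
  star_mul := by
    rintro ⟨a⟩ ⟨b⟩
    show SeparationQuotient.mk (star (a * b)) = _
    rw [star_mul]; rfl
  star_add := by
    rintro ⟨a⟩ ⟨b⟩
    show SeparationQuotient.mk (star (a + b)) = _
    rw [star_add]; rfl

instance : StarModule ℂ (CQ ω A) where
  star_smul z := by
    rintro ⟨a⟩
    show SeparationQuotient.mk (star (z • a)) = _
    rw [star_smul]; rfl

instance : CStarRing (CQ ω A) where
  norm_mul_self_le := by
    rintro ⟨a⟩
    exact (nrm_star_mul (Pre.seq ω a)).ge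

/-- The quotient map. -/
def proj : ↥(centralAlg ω A) →⋆ₐ[ℂ] CQ ω A where
  toFun a := SeparationQuotient.mk (show Pre ω A from a)
  map_one' := rfl
  map_mul' _ _ := rfl
  map_zero' := rfl
  map_add' _ _ := rfl
  commutes' _ := rfl
  map_star' _ := rfl

lemma norm_proj (a : ↥(centralAlg ω A)) : ‖proj ω a‖ = nrm ω (a : ℕ →ᵇ A) := rfl

lemma proj_surjective : Function.Surjective (proj ω (A := A)) :=
  fun x => SeparationQuotient.surjective_mk x

lemma proj_eq_iff (a b : ↥(centralAlg ω A)) :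
    proj ω a = proj ω b ↔ IsNull ω ((a : ℕ →ᵇ A) - (b : ℕ →ᵇ A)) := by
  rw [isNull_iff, ← sub_eq_zero, ← norm_eq_zero, ← map_sub (proj ω (A := A)) a b, norm_proj]
  rfl

lemma continuous_proj : Continuous (proj ω (A := A)) :=
  AddMonoidHomClass.continuous_of_bound (proj ω (A := A)) 1 fun a => by
    rw [one_mul, norm_proj]
    exact nrm_le _

/-- Every class has representatives of almost the same norm. -/
lemma exists_rep (x : CQ ω A) {ε : ℝ} (hε : 0 < ε) :
    ∃ a : ↥(centralAlg ω A), proj ω a = x ∧ ‖a‖ ≤ ‖x‖ + ε := by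
  obtain ⟨a, rfl⟩ := proj_surjective ω x
  set r := ‖proj ω a‖ + ε
  have hr : 0 ≤ r := by positivity
  classical
  set b : ℕ →ᵇ A := BoundedContinuousFunction.ofNormedAddCommGroupDiscrete
    (fun n => if ‖(a : ℕ →ᵇ A) n‖ ≤ r then (a : ℕ →ᵇ A) n else 0) r fun n => by
      split_ifs with h <;> simp [h, hr]
  have hev : ∀ᶠ n in (ω : Filter ℕ), b n = (a : ℕ →ᵇ A) n := by
    have := (tendsto_nrm (ω := ω) (a : ℕ →ᵇ A)).eventually_le_const
      (show nrm ω (a : ℕ →ᵇ A) < r by rw [← norm_proj]; exact lt_add_of_pos_right _ hε)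
    exact this.mono fun n hn => by simp [b, hn]
  have hnull : IsNull ω (b - (a : ℕ →ᵇ A)) :=
    tendsto_nhds_of_eventually_eq (hev.mono fun n hn => by simp [hn])
  refine ⟨⟨b, IsCentral.of_null_sub a.2 hnull⟩, (proj_eq_iff ω _ _).2 hnull, ?_⟩
  refine (BoundedContinuousFunction.norm_le hr).2 fun n => ?_
  show ‖(if ‖(a : ℕ →ᵇ A) n‖ ≤ r then (a : ℕ →ᵇ A) n else 0)‖ ≤ r
  split_ifs with h <;> simp [h, hr]

instance : CompleteSpace (CQ ω A) := by
  refine NormedAddCommGroup.completeSpace_of_summable_imp_tendsto fun u hu => ?_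
  choose a ha hn using fun k => exists_rep ω (u k) (show (0 : ℝ) < (1 / 2) ^ k by positivity)
  have hs : Summable a :=
    Summable.of_norm_bounded (hu.add summable_geometric_two) hn
  refine ⟨proj ω (∑' k, a k), ?_⟩
  have := ((continuous_proj ω).tendsto _).comp hs.hasSum.tendsto_sum_nat
  simpa [Function.comp_def, map_sum, ha] using this

instance : CStarAlgebra (CQ ω A) where

end Vale.Agent.P101
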