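import Mathlib
import Vale.Agent.P101.Defs
import Vale.Agent.P101.Quot
import Vale.Agent.P101.Char

/-!
The central sequence algebra: no characters gives infinitely many commuting copies of a finitely
generated algebra with a witness, by diagonal reindexing.
-/

noncomputable section

open Filter Topology
open scoped BoundedContinuousFunction

namespace Vale.Agent.P101

universe u

variable {A : Type u} [CStarAlgebra A] {ω : Ultrafilter ℕ}

/-- A character of the central sequence algebra gives a `CentralChar`. -/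
lemma isEmpty_char (h : IsEmpty (CentralChar ω A)) : IsEmpty (CQ ω A →⋆ₐ[ℂ] ℂ) := by
  classical
  refine ⟨fun χ => h.false ?_⟩
  let v : (ℕ →ᵇ A) → ℂ := fun a => if ha : IsCentral ω a then χ (proj ω ⟨a, ha⟩) else 0
  have hv : ∀ a : ↥(centralAlg ω A), v a = χ (proj ω a) := fun a => dif_pos a.2
  refine ⟨v, ?_, ?_, ?_, ?_, ?_, ?_⟩
  · simpa using hv 1
  · intro a b ha hb
    simpa [hv ⟨a, ha⟩, hv ⟨b, hb⟩] using hv (⟨a, ha⟩ + ⟨b, hb⟩)
  · intro a b ha hb
    simpa [hv ⟨a, ha⟩, hv ⟨b, hb⟩] using hv (⟨a, ha⟩ * ⟨b, hb⟩)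
  · intro z a ha
    simpa [hv ⟨a, ha⟩, smul_eq_mul] using hv (z • ⟨a, ha⟩)
  · intro a ha
    simpa [hv ⟨a, ha⟩, map_star] using hv (star ⟨a, ha⟩)
  · intro a ha hn
    have : proj ω (⟨a, ha⟩ : ↥(centralAlg ω A)) = proj ω 0 :=
      (proj_eq_iff ω _ _).2 (by simpa using hn)
    simp [hv ⟨a, ha⟩, this]

/-- Reindexing of a bounded sequence. -/
def reidx (m : ℕ → ℕ) (a : ℕ →ᵇ A) : ℕ →ᵇ A :=
  a.compContinuous ⟨m, continuous_of_discreteTopology⟩

@[simp] lemma reidx_apply (m : ℕ → ℕ) (a : ℕ →ᵇ A) (n : ℕ) : reidx m a n = a (m n) := rfl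

lemma continuous_reidx (m : ℕ → ℕ) : Continuous (reidx (A := A) m) :=
  BoundedContinuousFunction.continuous_compContinuous _

/-- Reindexing as a homomorphism. -/
def reidxHom (m : ℕ → ℕ) : (ℕ →ᵇ A) →⋆ₐ[ℂ] (ℕ →ᵇ A) where
  toFun := reidx m
  map_one' := rfl
  map_mul' _ _ := rfl
  map_zero' := rfl
  map_add' _ _ := rfl
  commutes' _ := rfl
  map_star' _ := rfl

lemma tendsto_atTop_omega (hω : (ω : Filter ℕ) ≤ cofinite) : (ω : Filter ℕ) ≤ atTop := by
  rwa [Nat.cofinite_eq_atTop] at hω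

/-- Index maps for a countable family of central sequences: every reindexed family is central,
norms are preserved, and different reindexings commute in the limit. -/
lemma exists_index (hω : (ω : Filter ℕ) ≤ cofinite) [TopologicalSpace.SeparableSpace A]
    (e : ℕ → ↥(centralAlg ω A)) :
    ∃ m : ℕ → ℕ → ℕ,
      (∀ k i, IsCentral ω (reidx (m k) (e i : ℕ →ᵇ A))) ∧
      (∀ k i, nrm ω (reidx (m k) (e i : ℕ →ᵇ A)) = nrm ω (e i : ℕ →ᵇ A)) ∧
      (∀ j k, j < k → ∀ i i', IsNull ω
        (reidx (m k) (e i : ℕ →ᵇ A) * reidx (m j) (e i' : ℕ →ᵇ A)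
          - reidx (m j) (e i' : ℕ →ᵇ A) * reidx (m k) (e i : ℕ →ᵇ A))) := by
  classical
  obtain ⟨a, ha⟩ := TopologicalSpace.exists_dense_seq A
  let good : ℕ → (k : ℕ) → ((j : ℕ) → j < k → ℕ) → ℕ → Prop := fun n k prev p =>
    ∀ i ≤ n, (∀ t ≤ n, ‖(e i : ℕ →ᵇ A) p * a t - a t * (e i : ℕ →ᵇ A) p‖ < 1 / ((n : ℝ) + 1)) ∧
      |‖(e i : ℕ →ᵇ A) p‖ - nrm ω (e i : ℕ →ᵇ A)| < 1 / ((n : ℝ) + 1) ∧
      ∀ i' ≤ n, ∀ (j : ℕ) (hj : j < k), ‖(e i : ℕ →ᵇ A) p * (e i' : ℕ →ᵇ A) (prev j hj)
        - (e i' : ℕ →ᵇ A) (prev j hj) * (e i : ℕ →ᵇ A) p‖ < 1 / ((n : ℝ) + 1)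
  have hgood : ∀ n k prev, ∃ p, good n k prev p := by
    intro n k prev
    have hpos : (0 : ℝ) < 1 / ((n : ℝ) + 1) := by positivity
    refine Filter.Eventually.exists (f := (ω : Filter ℕ)) ?_
    refine (Set.finite_Iic n).eventually_all.2 fun i _ => ?_
    refine ((Set.finite_Iic n).eventually_all.2 fun t _ => ((e i).2 (a t)).eventually_lt_const hpos).and
      ?_
    refine ((tendsto_nrm (ω := ω) (e i : ℕ →ᵇ A)).eventually (eventually_abs_sub_lt _ hpos)).and ?_
    refine (Set.finite_Iic n).eventually_all.2 fun i' _ => ?_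
    have hall : ∀ᶠ p in (ω : Filter ℕ), ∀ j : Fin k,
        ‖(e i : ℕ →ᵇ A) p * (e i' : ℕ →ᵇ A) (prev j.1 j.2)
          - (e i' : ℕ →ᵇ A) (prev j.1 j.2) * (e i : ℕ →ᵇ A) p‖ < 1 / ((n : ℝ) + 1) :=
      eventually_all.2 fun j => ((e i).2 ((e i' : ℕ →ᵇ A) (prev j.1 j.2))).eventually_lt_const hpos
    exact hall.mono fun p hp j hj => hp ⟨j, hj⟩
  let M : ℕ → ℕ → ℕ := fun n k => Nat.strongRecOn k fun k ih => (hgood n k ih).choose
  have hM : ∀ n k, good n k (fun j _ => M n j) (M n k) := by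
    intro n k
    have : M n k = (hgood n k fun j _ => M n j).choose := by
      simp only [M]
      rw [Nat.strongRecOn_eq]
    rw [this]
    exact (hgood n k _).choose_spec
  have hat := tendsto_atTop_omega hω
  have hsmall : Tendsto (fun n : ℕ => 1 / ((n : ℝ) + 1)) (ω : Filter ℕ) (𝓝 0) :=
    tendsto_one_div_add_atTop_nhds_zero_nat.mono_left hat
  have hge : ∀ i : ℕ, ∀ᶠ n in (ω : Filter ℕ), i ≤ n := fun i => hat (eventually_ge_atTop i)
  refine ⟨fun k n => M n k, fun k i => ?_, fun k i => ?_, fun j k hjk i i' => ?_⟩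
  · rw [isCentral_iff]
    have hdense : ∀ t, nrm ω (reidx (fun n => M n k) (e i : ℕ →ᵇ A) * cst (a t)
        - cst (a t) * reidx (fun n => M n k) (e i : ℕ →ᵇ A)) = 0 := fun t => by
      refine (isNull_iff _).1 (squeeze_zero' (Eventually.of_forall fun n => norm_nonneg _) ?_ hsmall)
      filter_upwards [hge i, hge t] with n hi ht
      exact ((hM n k i hi).1 t ht).le
    intro b
    refine congrFun (Continuous.ext_on ha ?_ continuous_const
      (fun x ⟨t, ht⟩ => ht ▸ hdense t) : (fun b : A => nrm ω (reidx (fun n => M n k) (e i : ℕ →ᵇ A)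
        * cst b - cst b * reidx (fun n => M n k) (e i : ℕ →ᵇ A))) = fun _ => 0) b
    exact continuous_nrm.comp (by
      have : Continuous (cst : A → ℕ →ᵇ A) :=
        (LipschitzWith.of_dist_le_mul (K := 1) fun x y => by
          simp only [NNReal.coe_one, one_mul]
          exact (BoundedContinuousFunction.dist_le dist_nonneg).2 fun _ => le_rfl).continuous
      fun_prop)
  · refine tendsto_nhds_unique (tendsto_nrm _) ?_
    rw [tendsto_iff_norm_sub_tendsto_zero]
    refine squeeze_zero' (Eventually.of_forall fun n => norm_nonneg _) ?_ hsmall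
    filter_upwards [hge i] with n hi
    exact (hM n k i hi).2.1.le
  · refine squeeze_zero' (Eventually.of_forall fun n => norm_nonneg _) ?_ hsmall
    filter_upwards [hge i, hge i'] with n hi hi'
    exact ((hM n k i hi).2.2 i' hi' j hjk).le

lemma mem_range_iff {P R : Type*} [CStarAlgebra R] [Semiring P] [StarRing P] [Algebra ℂ P]
    [StarModule ℂ P] (f : P →⋆ₐ[ℂ] R) {x : R} : x ∈ f.range ↔ ∃ a, f a = x := Iff.rfl

/-- A finite subset of the central sequence algebra lies in a closed subalgebra with infinitely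
many commuting copies. -/
lemma exists_copies (hω : (ω : Filter ℕ) ≤ cofinite) [TopologicalSpace.SeparableSpace A]
    (G : Finset (CQ ω A)) :
    ∃ (S : StarSubalgebra ℂ (CQ ω A)) (_ : IsClosed (S : Set (CQ ω A))),
      (G : Set (CQ ω A)) ⊆ S ∧ Nonempty (Copies S (CQ ω A) ℕ) := by
  classical
  let L : Set ↥(centralAlg ω A) := Function.surjInv (proj_surjective ω) '' (G : Set (CQ ω A))
  let E : StarSubalgebra ℂ ↥(centralAlg ω A) := StarAlgebra.adjoin ℂ L
  have hsep : TopologicalSpace.IsSeparable (E : Set ↥(centralAlg ω A)) := by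
    have hfin : (L ∪ star L).Countable :=
      ((G.finite_toSet.image _).union ((G.finite_toSet.image _).star)).countable
    have hc : (Submonoid.closure (L ∪ star L) : Set ↥(centralAlg ω A)).Countable := by
      have : Countable (L ∪ star L : Set ↥(centralAlg ω A)) := hfin.to_subtype
      rw [Submonoid.closure_eq_mrange]
      exact Set.countable_range _
    have := hc.isSeparable.span (R := ℂ)
    rwa [← StarAlgebra.adjoin_eq_span] at this
  have : TopologicalSpace.SeparableSpace E := hsep.separableSpace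
  obtain ⟨d, hd⟩ := TopologicalSpace.exists_dense_seq E
  obtain ⟨m, hm1, hm2, hm3⟩ := exists_index hω fun i => (d i : ↥(centralAlg ω A))
  let v : E → ℕ →ᵇ A := fun x => ((x : ↥(centralAlg ω A)) : ℕ →ᵇ A)
  have hvc : Continuous v := continuous_subtype_val.comp continuous_subtype_val
  have hr : ∀ k (x : E), IsCentral ω (reidx (m k) (v x)) := fun k x => by
    have hcl : IsClosed {x : E | reidx (m k) (v x) ∈ centralAlg ω A} :=
      (isClosed_centralAlg ω).preimage ((continuous_reidx _).comp hvc)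
    exact mem_centralAlg ω |>.1 (hd.induction_on x hcl fun i => hm1 k i)
  let Ψ : ℕ → E →⋆ₐ[ℂ] CQ ω A := fun k => (proj ω).comp
    (StarAlgHom.codRestrict ((reidxHom (m k)).comp ((centralAlg ω A).subtype.comp E.subtype))
      (centralAlg ω A) fun x => hr k x)
  let π : E →⋆ₐ[ℂ] CQ ω A := (proj ω).comp E.subtype
  have hΨn : ∀ k x, ‖Ψ k x‖ = ‖π x‖ := fun k x => by
    refine hd.induction_on x (isClosed_eq ?_ ?_) fun i => hm2 k i
    · exact continuous_nrm.comp ((continuous_reidx _).comp hvc)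
    · exact continuous_nrm.comp hvc
  have hΨc : ∀ k, Continuous (Ψ k) := fun k =>
    AddMonoidHomClass.continuous_of_bound (Ψ k) 1 fun x => by
      rw [one_mul, hΨn]
      exact nrm_le _
  have hΨcomm : ∀ j k, j ≠ k → ∀ x y, Commute (Ψ j x) (Ψ k y) := by
    have base : ∀ j k, j < k → ∀ x y, Commute (Ψ k x) (Ψ j y) := fun j k hjk x y => by
      refine (hd.prodMap hd).induction_on (p := fun q : E × E => Commute (Ψ k q.1) (Ψ j q.2)) (x, y)
        ?_ fun q => ?_
      · exact isClosed_eq (((hΨc k).comp continuous_fst).mul ((hΨc j).comp continuous_snd))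
          (((hΨc j).comp continuous_snd).mul ((hΨc k).comp continuous_fst))
      · show _ * _ = _ * _
        simp only [Prod.map]
        rw [← sub_eq_zero, ← norm_eq_zero]
        exact (isNull_iff _).1 (hm3 j k hjk q.1 q.2)
    intro j k hjk x y
    rcases lt_or_gt_of_ne hjk with h | h
    · exact (base j k h y x).symm
    · exact base k j h x y
  have hex : ∀ k (b : π.range.topologicalClosure), ∃ y : CQ ω A, ((b : CQ ω A), y) ∈
      closure (Set.range fun x : E => (π x, Ψ k x)) := by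
    intro k b
    obtain ⟨u, hu, hlim⟩ := mem_closure_iff_seq_limit.1
      (show (b : CQ ω A) ∈ closure (π.range : Set (CQ ω A)) from b.2)
    choose x hx using fun i => (mem_range_iff π).1 (hu i)
    have hcauchy : CauchySeq fun i => Ψ k (x i) := by
      have h1 := hlim.cauchySeq
      rw [Metric.cauchySeq_iff] at h1 ⊢
      intro ε hε
      obtain ⟨N, hN⟩ := h1 ε hε
      refine ⟨N, fun i hi i' hi' => ?_⟩
      rw [dist_eq_norm, ← map_sub, hΨn, map_sub, hx, hx, ← dist_eq_norm]
      exact hN i hi i' hi'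
    obtain ⟨y, hy⟩ := cauchySeq_tendsto_of_complete hcauchy
    refine ⟨y, mem_closure_of_tendsto ((hlim.congr fun i => (hx i).symm).prodMk_nhds hy)
      (Eventually.of_forall fun i => ⟨x i, rfl⟩)⟩
  let Γ : ℕ → StarSubalgebra ℂ (CQ ω A × CQ ω A) := fun k =>
    ((StarAlgHom.prod π (Ψ k)).range).topologicalClosure
  have hΓ : ∀ k (q : CQ ω A × CQ ω A), q ∈ Γ k ↔
      q ∈ closure (Set.range fun x : E => (π x, Ψ k x)) := fun k q => by
    show q ∈ closure ((StarAlgHom.prod π (Ψ k)).range : Set (CQ ω A × CQ ω A)) ↔ _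
    rfl
  have hiso : ∀ k q, q ∈ Γ k → ‖q.2‖ = ‖q.1‖ := fun k q hq => by
    refine closure_minimal (t := {q : CQ ω A × CQ ω A | ‖q.2‖ = ‖q.1‖}) ?_
      (isClosed_eq continuous_snd.norm continuous_fst.norm) ((hΓ k q).1 hq)
    rintro _ ⟨x, rfl⟩
    exact hΨn k x
  choose f hf using hex
  have huniq : ∀ k (b : π.range.topologicalClosure) y, ((b : CQ ω A), y) ∈ Γ k → f k b = y := by
    intro k b y hy
    have := hiso k _ ((Γ k).sub_mem ((hΓ k _).2 (hf k b)) hy)
    simpa [sub_eq_zero] using this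
  let φ : ℕ → π.range.topologicalClosure →⋆ₐ[ℂ] CQ ω A := fun k =>
    { toFun := f k
      map_one' := huniq k 1 1 (Γ k).one_mem
      map_mul' := fun a b => huniq k _ _ ((Γ k).mul_mem ((hΓ k _).2 (hf k a)) ((hΓ k _).2 (hf k b)))
      map_zero' := huniq k 0 0 (Γ k).zero_mem
      map_add' := fun a b => huniq k _ _ ((Γ k).add_mem ((hΓ k _).2 (hf k a)) ((hΓ k _).2 (hf k b)))
      commutes' := fun z => huniq k _ _ ((Γ k).algebraMap_mem z)
      map_star' := fun a => huniq k _ _ (star_mem ((hΓ k _).2 (hf k a))) }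
  have : IsClosed (π.range.topologicalClosure : Set (CQ ω A)) :=
    StarSubalgebra.isClosed_topologicalClosure _
  refine ⟨π.range.topologicalClosure, this, ?_,
    ⟨φ, fun j k hjk a b => ?_⟩⟩
  · intro g hg
    refine StarSubalgebra.le_topologicalClosure _ ((mem_range_iff π).2
      ⟨⟨_, StarAlgebra.subset_adjoin ℂ L ⟨g, hg, rfl⟩⟩, ?_⟩)
    exact Function.surjInv_eq (proj_surjective ω) g
  · show f j a * f k b = f k b * f j a
    have key : ∀ q ∈ closure (Set.range fun x : E => (π x, Ψ j x)),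
        ∀ q' ∈ closure (Set.range fun x : E => (π x, Ψ k x)), q.2 * q'.2 = q'.2 * q.2 := by
      intro q hq q' hq'
      refine closure_minimal (t := {r : CQ ω A × CQ ω A | r.2 * q'.2 = q'.2 * r.2}) ?_
        (isClosed_eq (continuous_snd.mul continuous_const) (continuous_const.mul continuous_snd)) hq
      rintro _ ⟨x, rfl⟩
      refine closure_minimal (s := Set.range fun x : E => (π x, Ψ k x))
        (t := {r : CQ ω A × CQ ω A | Ψ j x * r.2 = r.2 * Ψ j x}) ?_
        (isClosed_eq ((continuous_const_mul (Ψ j x)).comp continuous_snd)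
          ((continuous_mul_const (Ψ j x)).comp continuous_snd)) hq'
      rintro _ ⟨y, rfl⟩
      exact hΨcomm j k hjk x y
    exact key _ (hf j a) _ (hf k b)

theorem centralStatement_ok : CentralStatement.{u} := by
  intro A _ _ ω hω he
  have hfull : Full {x : CQ ω A | ∃ a b, a * b - b * a = x} := by
    by_contra h
    exact (isEmpty_char he).false (exists_char_of_not_full h).some
  obtain ⟨G, hG⟩ := exists_finite_witness hfull
  obtain ⟨S, hS, hGS, hcop⟩ := exists_copies hω G
  refine ⟨S, CQ ω A, inferInstance, inferInstance, hG S hGS, hcop, ?_⟩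
  rintro ⟨c, e, f, v, r, s, h1, h2, h3, h4, h5, h6, h7⟩
  obtain ⟨c, rfl⟩ := proj_surjective ω c
  obtain ⟨e, rfl⟩ := proj_surjective ω e
  obtain ⟨f, rfl⟩ := proj_surjective ω f
  obtain ⟨v, rfl⟩ := proj_surjective ω v
  obtain ⟨r, rfl⟩ := proj_surjective ω r
  obtain ⟨s, rfl⟩ := proj_surjective ω s
  simp only [← map_star, ← map_mul, ← map_sub, ← map_one (proj ω (A := A)),
    ← map_zero (proj ω (A := A)), proj_eq_iff] at h1 h2 h3 h4 h5 h6 h7
  exact ⟨c, e, f, v, r, s, c.2, e.2, f.2, v.2, r.2, s.2, h1, h2, by simpa using h3, h4, h5, h6, h7⟩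

end Vale.Agent.P101
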