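import Vale.Agent.P101.Quot

/-! The easy direction: the relations exclude characters. -/

noncomputable section

open scoped BoundedContinuousFunction

namespace Vale.Agent.P101

universe u

variable {A : Type u} [CStarAlgebra A] {ω : Ultrafilter ℕ}

theorem isEmpty_centralChar (h : CentralComparison ω A) : IsEmpty (CentralChar ω A) := by
  obtain ⟨c, e, f, v, r, s, hc, he, hf, hv, hr, hs, h1, h2, h3, h4, h5, h6, h7⟩ := h
  refine ⟨fun χ => ?_⟩
  let S := centralAlg ω A
  have key : ∀ a b : ℕ →ᵇ A, IsCentral ω a → IsCentral ω b → IsNull ω (a - b) →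
      χ.val a = χ.val b := fun a b ha hb hn => by
    have hd : IsCentral ω (a - b) := S.sub_mem ha hb
    have := χ.map_add (a - b) b hd hb
    rwa [sub_add_cancel, χ.map_null _ hd hn, zero_add] at this
  have h0 : χ.val 0 = 0 := by
    have := χ.map_smul 0 (1 : ℕ →ᵇ A) S.one_mem
    rwa [zero_smul, zero_mul] at this
  have hcc : χ.val c * χ.val c = 0 := by
    rw [← χ.map_mul c c hc hc, key _ 0 (S.mul_mem hc hc) S.zero_mem (by rwa [sub_zero]), h0]
  have hc0 : χ.val c = 0 := mul_self_eq_zero.1 hcc
  have sc : IsCentral ω (star c) := star_mem (s := S) hc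
  have he0 : χ.val e = 0 := by
    have := key _ _ (S.mul_mem hc sc) (S.mul_mem he he) h4
    rw [χ.map_mul _ _ hc sc, χ.map_mul _ _ he he, hc0, zero_mul] at this
    exact mul_self_eq_zero.1 this.symm
  have hf0 : χ.val f = 0 := by
    have := key _ _ (S.mul_mem sc hc) (S.mul_mem hf hf) h5
    rw [χ.map_mul _ _ sc hc, χ.map_mul _ _ hf hf, hc0, mul_zero] at this
    exact mul_self_eq_zero.1 this.symm
  have hv0 : χ.val v = 0 := by
    have := key _ _ (S.mul_mem he hv) hv h7
    rw [χ.map_mul _ _ he hv, he0, zero_mul] at this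
    exact this.symm
  have sv : IsCentral ω (star v) := star_mem (s := S) hv
  have h1e : IsCentral ω (1 - e) := S.sub_mem S.one_mem he
  have := key _ _ (S.mul_mem sv hv) (S.sub_mem h1e hf) h6
  rw [χ.map_mul _ _ sv hv, hv0, mul_zero] at this
  have e1 : χ.val (1 - e - f) + χ.val f + χ.val e = 1 := by
    rw [← χ.map_add _ _ (S.sub_mem h1e hf) hf, sub_add_cancel, ← χ.map_add _ _ h1e he,
      sub_add_cancel, χ.map_one]
  rw [← this, he0, hf0] at e1
  simp at e1

end Vale.Agent.P101
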