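import Mathlib
import Vale.Agent.P101.Central

/-!
Faithfulness controls: characters of the central sequence algebra are the same as central
characters, and the scalars have one.
-/

noncomputable section

open Filter Topology
open scoped BoundedContinuousFunction

namespace Vale.Agent.P101

universe u

/-- A central character gives a character of the central sequence algebra. -/
theorem hom_of_char {A : Type u} [CStarAlgebra A] {ω : Ultrafilter ℕ} (χ : CentralChar ω A) :
    Nonempty (CQ ω A →⋆ₐ[ℂ] ℂ) := by
  choose r hr using proj_surjective ω (A := A)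
  have key : ∀ a : ↥(centralAlg ω A), χ.val (r (proj ω a) : ℕ →ᵇ A) = χ.val (a : ℕ →ᵇ A) := fun a => by
    have hn := (proj_eq_iff ω _ _).1 (hr (proj ω a))
    have h0 := χ.map_null _ ((centralAlg ω A).sub_mem (r (proj ω a)).2 a.2) hn
    have := χ.map_add _ _ ((centralAlg ω A).sub_mem (r (proj ω a)).2 a.2) a.2
    rw [h0, zero_add, sub_add_cancel] at this
    exact this
  refine ⟨{ toFun := fun x => χ.val (r x : ℕ →ᵇ A), map_one' := ?_, map_mul' := ?_, map_zero' := ?_, map_add' := ?_, commutes' := ?_, map_star' := ?_ }⟩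
  · rw [← map_one (proj ω (A := A)), key]; exact χ.map_one
  · intro x y
    obtain ⟨a, rfl⟩ := proj_surjective ω x
    obtain ⟨b, rfl⟩ := proj_surjective ω y
    rw [← map_mul, key, key, key]; exact χ.map_mul _ _ a.2 b.2
  · rw [← map_zero (proj ω (A := A)), key]
    simpa using χ.map_smul 0 0 (centralAlg ω A).zero_mem
  · intro x y
    obtain ⟨a, rfl⟩ := proj_surjective ω x
    obtain ⟨b, rfl⟩ := proj_surjective ω y
    rw [← map_add, key, key, key]; exact χ.map_add _ _ a.2 b.2
  · intro z
    rw [← AlgHomClass.commutes (proj ω (A := A)) z, key]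
    rw [Algebra.algebraMap_eq_smul_one]
    simpa [χ.map_one] using χ.map_smul z 1 (centralAlg ω A).one_mem
  · intro x
    obtain ⟨a, rfl⟩ := proj_surjective ω x
    rw [← map_star, key, key]; exact χ.map_star _ a.2

/-- The scalars have a central character. -/
theorem char_C (ω : Ultrafilter ℕ) : Nonempty (CentralChar ω ℂ) := by
  have hl : ∀ a : ℕ →ᵇ ℂ, ∃ x, Tendsto (fun n => a n) (ω : Filter ℕ) (𝓝 x) := fun a => by
    obtain ⟨x, -, hx⟩ := (isCompact_closedBall (0 : ℂ) ‖a‖).ultrafilter_le_nhds (ω.map fun n => a n)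
      (by rw [le_principal_iff, Ultrafilter.coe_map, mem_map]
          exact Filter.univ_mem' fun n => by simpa using a.norm_coe_le_norm n)
    exact ⟨x, hx⟩
  choose v hv using hl
  refine ⟨⟨v, tendsto_nhds_unique (hv 1) (by simp),
    fun a b _ _ => tendsto_nhds_unique (hv _) ((hv a).add (hv b)),
    fun a b _ _ => tendsto_nhds_unique (hv _) ((hv a).mul (hv b)),
    fun z a _ => tendsto_nhds_unique (hv _) ((hv a).const_mul z),
    fun a _ => tendsto_nhds_unique (hv _) ((Complex.continuous_conj.tendsto _).comp (hv a)),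
    fun a _ hn => tendsto_nhds_unique (hv a) (tendsto_zero_iff_norm_tendsto_zero.2 hn)⟩⟩

end Vale.Agent.P101
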