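import Vale.Agent.P101.Defs

/-! The pair colouring by the first differing bit. -/

namespace Vale.Agent.P101

/-- The least index at which two bit strings differ, or the last index if there is none. -/
def firstDiff {L : ℕ} (a b : Fin (L + 1) → Bool) : Fin (L + 1) :=
  ((List.finRange (L + 1)).find? fun i => a i != b i).getD (Fin.last L)

theorem firstDiff_comm {L : ℕ} (a b : Fin (L + 1) → Bool) : firstDiff a b = firstDiff b a := by
  unfold firstDiff
  congr 2
  funext i
  cases a i <;> cases b i <;> rfl

/-- Build a string, bit by bit, avoiding the value that each colour class takes there. -/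
theorem colour_key : ∀ (k : ℕ) (g : (Fin k → Bool) → Fin k),
    ∃ a b : Fin k → Bool, ∃ i : Fin k, a i ≠ b i ∧ (∀ j < i, a j = b j) ∧ g a = i ∧ g b = i := by
  intro k
  induction k with
  | zero => exact fun g => (g fun i => i.elim0).elim0
  | succ k ih =>
    intro g
    by_cases h : ∀ c : Bool, ∃ a, a 0 = c ∧ g a = 0
    · obtain ⟨a, ha, ga⟩ := h true
      obtain ⟨b, hb, gb⟩ := h false
      exact ⟨a, b, 0, by simp [ha, hb], fun j hj => absurd hj (Fin.not_lt_zero j), ga, gb⟩
    · push Not at h
      obtain ⟨c, hc⟩ := h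
      have hne : ∀ a : Fin k → Bool, g (Fin.cons c a) ≠ 0 := fun a => hc _ rfl
      let g' : (Fin k → Bool) → Fin k := fun a => (g (Fin.cons c a)).pred (hne a)
      obtain ⟨a, b, i, hab, hlt, ga, gb⟩ := ih g'
      refine ⟨Fin.cons c a, Fin.cons c b, i.succ, by simpa using hab, fun j hj => ?_, ?_, ?_⟩
      · refine Fin.cases (fun _ => ?_) (fun j' hj' => ?_) j hj
        · simp
        · simpa using hlt j' (Fin.succ_lt_succ_iff.1 hj')
      · rw [← ga, Fin.succ_pred]
      · rw [← gb, Fin.succ_pred]

/-- Every vertex colouring has a pair of vertices with the colour of their edge. -/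
theorem colour_ok : ColourStatement := by
  intro L
  let e : (Fin (L + 1) → Bool) ≃ Fin (Fintype.card (Fin (L + 1) → Bool)) := Fintype.equivFin _
  refine ⟨_, fun x y => firstDiff (e.symm x) (e.symm y), fun x y => firstDiff_comm _ _,
    fun f => ?_⟩
  obtain ⟨a, b, i, hab, hlt, ga, gb⟩ := colour_key _ fun a => f (e a)
  have hd : ∀ u v : Fin (L + 1) → Bool, u i ≠ v i → (∀ j < i, u j = v j) → firstDiff u v = i := by
    intro u v h1 h2
    have : (List.finRange (L + 1)).find? (fun j => u j != v j) = some i := by
      rw [List.find?_eq_some_iff_getElem]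
      refine ⟨by simpa using h1, i.1, by simp; omega, by simp, fun j hj => ?_⟩
      simpa using h2 ⟨j, by omega⟩ (by exact_mod_cast hj)
    simp [firstDiff, this]
  rcases lt_or_gt_of_ne (fun h : e a = e b => hab (by rw [e.injective h])) with h | h
  · exact ⟨e a, e b, h, by simp [ga, hd a b hab hlt], by simp [gb, hd a b hab hlt]⟩
  · exact ⟨e b, e a, h, by simp [gb, hd b a hab.symm fun j hj => (hlt j hj).symm],
      by simp [ga, hd b a hab.symm fun j hj => (hlt j hj).symm]⟩

end Vale.Agent.P101
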