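import Vale.Agent.P101.Defs

/-! Regrouping infinitely many commuting copies into blocks. -/

noncomputable section

open scoped BoundedContinuousFunction

namespace Vale.Agent.P101

universe u

/-- Injections of Fin n into ℕ, as a discrete space. -/
def BlockIdx (n : ℕ) : Type := Fin n ↪ ℕ

instance (n : ℕ) : TopologicalSpace (BlockIdx n) := ⊥

instance (n : ℕ) : DiscreteTopology (BlockIdx n) := ⟨rfl⟩

variable {B F : Type*} [CStarAlgebra B] [CStarAlgebra F] {n : ℕ}

/-- The i-th tautological copy of B in the bounded product over injections. -/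
def tautCopy (c : Copies B F ℕ) (i : Fin n) : B →⋆ₐ[ℂ] (BlockIdx n →ᵇ F) where
  toFun b := BoundedContinuousFunction.ofNormedAddCommGroupDiscrete
    (fun e => c.hom (e.toFun i) b) ‖b‖ fun _ => NonUnitalStarAlgHom.norm_apply_le _ b
  map_one' := by ext e; simp
  map_mul' a b := by ext e; simp
  map_zero' := by ext e; simp
  map_add' a b := by ext e; simp
  commutes' r := by ext e; simp [Algebra.algebraMap_eq_smul_one]
  map_star' a := by ext e; simp [map_star]

/-- Evaluation at an injection. -/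
def evalAt (e : BlockIdx n) : (BlockIdx n →ᵇ F) →⋆ₐ[ℂ] F where
  toFun f := f e
  map_one' := rfl
  map_mul' _ _ := rfl
  map_zero' := rfl
  map_add' _ _ := rfl
  commutes' _ := rfl
  map_star' _ := rfl

/-- The k-th block. -/
def blockEmb (n k : ℕ) : BlockIdx n :=
  ⟨fun i => k * n + i.1, fun _ _ h => Fin.ext (by simpa using h)⟩

theorem blockEmb_ne {k l : ℕ} (h : k ≠ l) (i j : Fin n) :
    (blockEmb n k).toFun i ≠ (blockEmb n l).toFun j := by
  intro he
  have he' : k * n + i.1 = l * n + j.1 := he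
  rcases lt_or_gt_of_ne h with hl | hl
  · nlinarith [i.2, j.2, Nat.mul_le_mul_right n (show k + 1 ≤ l from hl)]
  · nlinarith [i.2, j.2, Nat.mul_le_mul_right n (show l + 1 ≤ k from hl)]

/-- The algebra generated by the n tautological copies. -/
def blockAlg (c : Copies B F ℕ) (n : ℕ) : StarSubalgebra ℂ (BlockIdx n →ᵇ F) :=
  (StarAlgebra.adjoin ℂ (⋃ i : Fin n, Set.range (tautCopy c i))).topologicalClosure

theorem evalAt_mem_centralizer (c : Copies B F ℕ) (e : BlockIdx n) (s : Set F)
    (hs : ∀ i b, tautCopy c i b ∈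
      StarSubalgebra.comap (evalAt e) (StarSubalgebra.centralizer ℂ s))
    {x : BlockIdx n →ᵇ F} (hx : x ∈ blockAlg c n) :
    x e ∈ StarSubalgebra.centralizer ℂ s := by
  have hcl : IsClosed (StarSubalgebra.comap (evalAt e) (StarSubalgebra.centralizer ℂ s) :
      Set (BlockIdx n →ᵇ F)) :=
    IsClosed.preimage (show Continuous fun f : BlockIdx n →ᵇ F => f e by fun_prop)
      (Set.isClosed_centralizer _)
  refine StarSubalgebra.topologicalClosure_minimal (StarAlgebra.adjoin_le ?_) hcl hx
  rintro y ⟨_, ⟨i, rfl⟩, b, rfl⟩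
  exact hs i b

theorem commute_blocks (c : Copies B F ℕ) {k l : ℕ} (h : k ≠ l) {x y : BlockIdx n →ᵇ F}
    (hx : x ∈ blockAlg c n) (hy : y ∈ blockAlg c n) :
    Commute (x (blockEmb n k)) (y (blockEmb n l)) := by
  set S : Set F := ⋃ i : Fin n, Set.range (c.hom ((blockEmb n l).toFun i)) with hS
  have h1 : ∀ z ∈ blockAlg c n, z (blockEmb n k) ∈ StarSubalgebra.centralizer ℂ S := by
    intro z hz
    refine evalAt_mem_centralizer c _ S (fun i b => ?_) hz
    rw [StarSubalgebra.mem_comap, StarSubalgebra.mem_centralizer_iff]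
    rintro g ⟨_, ⟨j, rfl⟩, d, rfl⟩
    have hc := fun d => (c.comm _ _ (blockEmb_ne h i j) b d).symm.eq
    exact ⟨hc d, by rw [← map_star]; exact hc (star d)⟩
  set S' : Set F := (fun z : BlockIdx n →ᵇ F => z (blockEmb n k)) '' (blockAlg c n : Set _)
  have h2 : y (blockEmb n l) ∈ StarSubalgebra.centralizer ℂ S' := by
    refine evalAt_mem_centralizer c _ S' (fun i b => ?_) hy
    rw [StarSubalgebra.mem_comap, StarSubalgebra.mem_centralizer_iff]
    rintro g ⟨z, hz, rfl⟩
    have hb : c.hom ((blockEmb n l).toFun i) b ∈ S := Set.mem_iUnion.2 ⟨i, b, rfl⟩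
    have hz1 := (StarSubalgebra.mem_centralizer_iff ℂ).1 (h1 z hz) _ hb
    have hz2 := (StarSubalgebra.mem_centralizer_iff ℂ).1
      (h1 (star z) (star_mem hz)) _ hb
    exact ⟨hz1.1.symm, hz2.1.symm⟩
  exact ((StarSubalgebra.mem_centralizer_iff ℂ).1 h2 _ ⟨x, hx, rfl⟩).1

/-- The regrouping module. -/
theorem regroup_ok : Regroup.{u} := by
  intro B F _ _ n c
  have : IsClosed (blockAlg c n : Set (BlockIdx n →ᵇ F)) :=
    StarSubalgebra.isClosed_topologicalClosure _
  refine ⟨blockAlg c n, inferInstance, ⟨⟨fun i => (tautCopy c i).codRestrict (blockAlg c n)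
    fun b => StarSubalgebra.le_topologicalClosure _
      (StarAlgebra.subset_adjoin ℂ _ (Set.mem_iUnion.2 ⟨i, b, rfl⟩)), ?_⟩⟩,
    ⟨⟨fun k => (evalAt (blockEmb n k)).comp (blockAlg c n).subtype, ?_⟩⟩⟩
  · intro i j hij a b
    apply Subtype.ext
    ext e
    exact (c.comm _ _ (fun he => hij (e.injective he)) a b).eq
  · intro k l hkl x y
    exact commute_blocks c hkl x.2 y.2

end Vale.Agent.P101
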