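import Vale.Agent.P101.Basic
import Vale.Agent.P101.Colour

/-! Stage 1: one self-adjoint element whose commutators are full. -/

noncomputable section

namespace Vale.Agent.P101

universe u

/-- The iterated commutator of a product of two commuting elements. -/
theorem double_commutator_mul {R : Type*} [Ring R] {a b u w : R} (hbu : Commute b u)
    (hab : Commute a w) (huw : Commute u w) :
    (a * b * u - u * (a * b)) * w - w * (a * b * u - u * (a * b)) =
      (a * u - u * a) * (b * w - w * b) := by
  have h : a * b * u - u * (a * b) = (a * u - u * a) * b := by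
    rw [sub_mul, mul_assoc a b u, hbu.eq, ← mul_assoc, ← mul_assoc]
  have hc : Commute (a * u - u * a) w :=
    (hab.mul_left huw).sub_left (huw.mul_left hab)
  rw [h, mul_sub, ← mul_assoc w, ← hc.eq, mul_assoc, mul_assoc _ w b]

/-- Stage 1. -/
theorem stage1_ok : Stage1.{u} := by
  intro B _ hB
  obtain ⟨L, b₀, hb₀, hfull₀⟩ := hB
  set b : Fin (L + 1) → B := Fin.cons 0 b₀ with hb
  have hsa : ∀ l, IsSelfAdjoint (b l) := fun l =>
    Fin.cases (by simp [hb]) (fun j => by simpa [hb] using hb₀ j) l
  have hfull : Full {x | ∃ l d, b l * d - d * b l = x} := by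
    refine full_mono hfull₀ ?_
    rintro x ⟨l, d, rfl⟩
    exact TwoSidedIdeal.subset_span ⟨l.succ, d, by simp [hb]⟩
  obtain ⟨n, col, -, hhit⟩ := colour_ok L
  refine ⟨n, fun D _ c => ?_⟩
  set t : Fin n × Fin n → D :=
    fun p => c.hom p.1 (b (col p.1 p.2)) * c.hom p.2 (b (col p.1 p.2)) with ht
  set P : Finset (Fin n × Fin n) := Finset.univ.filter fun p => p.1 < p.2 with hP
  have hPlt : ∀ p ∈ P, p.1 < p.2 := fun p hp => (Finset.mem_filter.1 hp).2
  refine ⟨∑ p ∈ P, t p, isSelfAdjoint_sum _ fun p hp => ?_, ?_⟩
  · exact (((hsa _).map (c.hom p.1)).commute_iff ((hsa _).map (c.hom p.2))).1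
      (c.comm _ _ (hPlt p hp).ne _ _)
  set T := ∑ p ∈ P, t p with hT
  set J := TwoSidedIdeal.span {z : D | ∃ d, T * d - d * T = z} with hJ
  have key : ∀ x y, x < y → ∀ d d', c.hom x (b (col x y) * d - d * b (col x y)) *
      c.hom y (b (col x y) * d' - d' * b (col x y)) ∈ J := by
    intro x y hxy d d'
    set u := c.hom x d
    set w := c.hom y d'
    have hmem : (T * u - u * T) * w - w * (T * u - u * T) ∈ J := by
      have h1 : T * u - u * T ∈ J := TwoSidedIdeal.subset_span ⟨u, rfl⟩
      exact J.sub_mem (J.mul_mem_right _ _ h1) (J.mul_mem_left _ _ h1)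
    have hzero : ∀ p ∈ P, p ≠ (x, y) → (t p * u - u * t p) * w - w * (t p * u - u * t p) = 0 := by
      intro p hp hne
      have hp' := hPlt p hp
      by_cases hx : p.1 = x ∨ p.2 = x
      · have hy : p.1 ≠ y ∧ p.2 ≠ y := by
          constructor
          · rintro rfl
            rcases hx with h | h
            · exact hxy.ne h.symm
            · exact (hp'.trans_eq h).not_gt hxy
          · intro h
            rcases hx with h' | h'
            · exact hne (Prod.ext h' h)
            · exact hxy.ne (h'.symm.trans h)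
        have htw : Commute (t p) w := (c.comm _ _ hy.1 _ _).mul_left (c.comm _ _ hy.2 _ _)
        have huw : Commute u w := c.comm _ _ hxy.ne _ _
        rw [sub_eq_zero]
        exact (((htw.mul_left huw).sub_left (huw.mul_left htw))).eq
      · simp only [not_or] at hx
        have htu : Commute (t p) u := (c.comm _ _ hx.1 _ _).mul_left (c.comm _ _ hx.2 _ _)
        rw [htu.eq, sub_self, zero_mul, mul_zero, sub_self]
    have hone : (T * u - u * T) * w - w * (T * u - u * T) =
        c.hom x (b (col x y) * d - d * b (col x y)) *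
          c.hom y (b (col x y) * d' - d' * b (col x y)) := by
      rw [hT]
      simp only [Finset.sum_mul, Finset.mul_sum, ← Finset.sum_sub_distrib]
      rw [Finset.sum_eq_single (x, y) hzero fun h => absurd (by simp [hP, hxy]) h]
      simp only [ht, map_sub, map_mul]
      exact double_commutator_mul (c.comm _ _ hxy.ne' _ _) (c.comm _ _ hxy.ne _ _)
        (c.comm _ _ hxy.ne _ _)
    rwa [hone] at hmem
  refine c.full_cover Finset.univ (fun _ => {x | ∃ l d, b l * d - d * b l = x})
    (fun i _ => hfull) fun g hg => ?_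
  choose f d hfd using fun i => hg i (Finset.mem_univ i)
  obtain ⟨x, y, hxy, hx, hy⟩ := hhit f
  refine c.prod_pair_mem hxy.ne (Finset.mem_univ x) (Finset.mem_univ y) ?_
  rw [← hfd x, ← hfd y, hx, hy]
  exact key x y hxy _ _

end Vale.Agent.P101
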