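import Vale.Agent.P101.Stage2.Band

/-! Stage 2: two orthogonal full elements. -/

noncomputable section

namespace Vale.Agent.P101.Stage2

variable {B D : Type*} [CStarAlgebra B] [CStarAlgebra D] {n : ℕ} (c : Copies B D (Fin n))

theorem norm_prod_le (s : Finset (Fin n)) (g : Fin n → B) (hg : ∀ i ∈ s, ‖g i‖ ≤ 1) :
    ‖c.prod s g‖ ≤ 1 := by
  induction s using Finset.induction_on with
  | empty => rw [c.prod_empty]; exact norm_one_le
  | insert i s hi ih =>
    rw [c.prod_insert hi]
    refine (norm_mul_le _ _).trans (mul_le_one₀ ?_ (norm_nonneg _)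
      (ih fun j hj => hg j (Finset.mem_insert_of_mem hj)))
    exact (NonUnitalStarAlgHom.norm_apply_le (c.hom i) (g i)).trans
      (hg i (Finset.mem_insert_self i s))

theorem commute_prod_prod {s t : Finset (Fin n)} (h : Disjoint s t) (g g' : Fin n → B) :
    Commute (c.prod s g) (c.prod t g') := by
  refine (Finset.noncommProd_commute _ _ _ _ fun j hj => ?_).symm
  exact (c.commute_prod (Finset.disjoint_left.1 h hj) _ _).symm

theorem hom_algebraMap_real (i : Fin n) (r : ℝ) :
    c.hom i (algebraMap ℝ B r) = algebraMap ℝ D r := by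
  rw [IsScalarTower.algebraMap_apply ℝ ℂ B, IsScalarTower.algebraMap_apply ℝ ℂ D]
  exact AlgHomClass.commutes (c.hom i) _

/-- A product of cut-offs whose centres sum to a point where `F` is large lies in the ideal of
`F` at the sum. -/
theorem prod_cut_mem {T : B} (hT : IsSelfAdjoint T) {k : ℝ} (hk : 0 < k) (u : Fin n → ℤ)
    {F : ℝ → ℝ} (hF : Continuous F) (hF0 : ∀ x, 0 ≤ F x) {θ ρ : ℝ} (hθ : 0 < θ) (hρ : 0 < ρ)
    (hbig : ∀ x, |x - ∑ i, (u i : ℝ) * k| < ρ → θ ≤ F x) (hsmall : n * (2 * k) < ρ)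
    {J : TwoSidedIdeal D} (hJ : cfc F (∑ i, c.hom i T) ∈ J) :
    c.prod Finset.univ (fun i => cut T k (u i)) ∈ J := by
  classical
  set S := ∑ i, c.hom i T
  set σ := ∑ i, (u i : ℝ) * k with hσ
  have hS : IsSelfAdjoint S := isSelfAdjoint_sum _ fun i _ => hT.map (c.hom i)
  set w : ℝ → ℝ := fun x => 1 / max (F x) θ
  have hw : Continuous w := by
    refine continuous_const.div (hF.max continuous_const) fun x => ?_
    exact (lt_of_lt_of_le hθ (le_max_right _ _)).ne'
  set kk : ℝ → ℝ := fun x => 1 - F x * w x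
  set l : ℝ → ℝ := fun x => kk x * (x - σ) / max ((x - σ) ^ 2) (ρ ^ 2)
  have hden : ∀ x, 0 < max ((x - σ) ^ 2) (ρ ^ 2) := fun x =>
    lt_of_lt_of_le (pow_pos hρ 2) (le_max_right _ _)
  have hkk : Continuous kk := continuous_const.sub (hF.mul hw)
  have hl : Continuous l := by
    refine (hkk.mul (continuous_id.sub continuous_const)).div ?_ fun x => (hden x).ne'
    fun_prop
  have hkk1 : ∀ x, 0 ≤ kk x ∧ kk x ≤ 1 := fun x => by
    have hm := lt_of_lt_of_le hθ (le_max_right (F x) θ)
    have h1 : F x * w x ≤ 1 := by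
      simp only [w, mul_one_div]
      exact (div_le_one hm).2 (le_max_left _ _)
    have h2 : 0 ≤ F x * w x := mul_nonneg (hF0 x) (by positivity)
    constructor <;> simp only [kk] <;> linarith
  have hkk0 : ∀ x, |x - σ| < ρ → kk x = 0 := fun x hx => by
    have h := hbig x hx
    simp only [kk, w, max_eq_left h]
    rw [mul_one_div, div_self (lt_of_lt_of_le hθ h).ne', sub_self]
  have hfact : ∀ x, kk x = (x - σ) * l x := fun x => by
    rcases lt_or_ge |x - σ| ρ with h | h
    · simp [l, hkk0 x h]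
    · have h2 : ρ ^ 2 ≤ (x - σ) ^ 2 := by
        rw [← sq_abs (x - σ)]; exact pow_le_pow_left₀ hρ.le h 2
      simp only [l, max_eq_left h2]
      have : x - σ ≠ 0 := fun e => by rw [e, abs_zero] at h; linarith
      field_simp
  have hl1 : ∀ x, |l x| ≤ 1 / ρ := fun x => by
    rcases lt_or_ge |x - σ| ρ with h | h
    · simp [l, hkk0 x h, hρ.le]
    · have hx0 : 0 < |x - σ| := lt_of_lt_of_le hρ h
      have hmul : |x - σ| * |l x| ≤ 1 := by
        rw [← abs_mul, ← hfact, abs_of_nonneg (hkk1 x).1]; exact (hkk1 x).2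
      rw [le_div_iff₀ hρ]
      nlinarith [abs_nonneg (l x)]
  set P := c.prod Finset.univ fun i => cut T k (u i)
  set W := c.prod Finset.univ fun i => cfc (wide k (u i)) T
  have hPW : P = P * W := by
    simp only [P, W, ← c.prod_mul]
    refine c.prod_congr fun i _ => ?_
    rw [cut, ← cfc_mul _ _ T]
    exact (cfc_congr fun x _ => bump_mul_wide k (u i) x).symm
  have hterm : ∀ i, ‖W * (c.hom i T - algebraMap ℝ D ((u i : ℝ) * k))‖ ≤ 2 * k := by
    intro i
    simp only [W]
    conv_lhs => rw [← Finset.insert_erase (Finset.mem_univ i), c.prod_insert' (Finset.notMem_erase i _),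
      mul_assoc, ← hom_algebraMap_real c i, ← map_sub, ← map_mul]
    refine (norm_mul_le _ _).trans ((mul_le_mul (norm_prod_le c _ _ fun j _ => norm_cfc_le zero_le_one
      fun x _ => by rw [Real.norm_eq_abs]; exact abs_wide_le k (u j) x)
      (NonUnitalStarAlgHom.norm_apply_le (c.hom i) _) (norm_nonneg _) zero_le_one).trans ?_)
    rw [one_mul]
    have e : cfc (wide k (u i)) T * (T - algebraMap ℝ B ((u i : ℝ) * k))
        = cfc (fun x => wide k (u i) x * (x - (u i : ℝ) * k)) T := by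
      rw [cfc_mul (wide k (u i)) (fun x => x - (u i : ℝ) * k) T,
        cfc_sub (fun x => x) (fun _ => (u i : ℝ) * k) T, cfc_id' ℝ T, cfc_const _ T]
    rw [e]
    refine norm_cfc_le (by positivity) fun x _ => ?_
    rw [Real.norm_eq_abs, mul_comm]
    exact abs_wide_mul_le hk (u i) x
  have hWS : ‖W * (S - algebraMap ℝ D σ)‖ ≤ n * (2 * k) := by
    rw [hσ, map_sum, ← Finset.sum_sub_distrib, Finset.mul_sum]
    refine (norm_sum_le _ _).trans ((Finset.sum_le_sum fun i _ => hterm i).trans (le_of_eq ?_))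
    simp
  have hk_eq : cfc kk S = (S - algebraMap ℝ D σ) * cfc l S := by
    rw [show kk = fun x => (x - σ) * l x from funext hfact,
      cfc_mul (fun x => x - σ) l S (continuous_id.sub continuous_const).continuousOn hl.continuousOn,
      cfc_sub (fun x => x) (fun _ => σ) S, cfc_id' ℝ S, cfc_const σ S]
  have hnorm : ‖W * cfc kk S‖ < 1 := by
    rw [hk_eq, ← mul_assoc]
    calc _ ≤ ‖W * (S - algebraMap ℝ D σ)‖ * ‖cfc l S‖ := norm_mul_le _ _
      _ ≤ n * (2 * k) * (1 / ρ) := mul_le_mul hWS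
          (norm_cfc_le (by positivity) fun x _ => by rw [Real.norm_eq_abs]; exact hl1 x)
          (norm_nonneg _) (by positivity)
      _ < 1 := by rw [mul_one_div, div_lt_one hρ]; exact hsmall
  have hmem : P * (1 - W * cfc kk S) ∈ J := by
    have hkS : cfc kk S = 1 - cfc F S * cfc w S := by
      rw [← cfc_mul F w S hF.continuousOn hw.continuousOn]
      calc cfc kk S = cfc (fun x => (1 : ℝ) - F x * w x) S := rfl
        _ = cfc (fun _ => (1 : ℝ)) S - cfc (fun x => F x * w x) S :=
          cfc_sub (fun _ => (1 : ℝ)) (fun x => F x * w x) S continuousOn_const (hF.mul hw).continuousOn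
        _ = _ := by rw [cfc_const_one ℝ S]
    rw [mul_sub, mul_one, ← mul_assoc, ← hPW, hkS, mul_sub, mul_one, sub_sub_cancel]
    exact J.mul_mem_left _ _ (J.mul_mem_right _ _ hJ)
  obtain ⟨v, hv⟩ := isUnit_one_sub_of_norm_lt_one hnorm
  rw [← hv] at hmem
  have := J.mul_mem_right _ ((v⁻¹ : Dˣ) : D) hmem
  rwa [mul_assoc, Units.mul_inv, mul_one] at this

/-- A discrete path from below `τ` to above it passes near `τ`. -/
theorem exists_near {v : ℕ → ℝ} {M : ℕ} {τ W : ℝ} (hW : 0 ≤ W) (h0 : v 0 ≤ τ) (hM : τ ≤ v M)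
    (hstep : ∀ j, j < M → v (j + 1) ≤ v j + W) : ∃ j ≤ M, |v j - τ| ≤ W := by
  classical
  have hex : ∃ j, τ ≤ v j := ⟨M, hM⟩
  set j := Nat.find hex with hj
  have h1 : τ ≤ v j := Nat.find_spec hex
  have h2 : j ≤ M := Nat.find_min' hex hM
  refine ⟨j, h2, abs_le.2 ⟨by linarith, ?_⟩⟩
  rcases Nat.eq_zero_or_pos j with h | h
  · rw [h]; linarith
  · obtain ⟨i, hi⟩ : ∃ i, j = i + 1 := ⟨j - 1, by omega⟩
    have h3 : v i < τ := not_le.1 (Nat.find_min hex (show i < j by omega))
    have h4 := hstep i (by omega)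
    rw [← hi] at h4
    linarith

/-- A function large near one point of each period generates everything at the sum. -/
theorem full_cfc {T : B} (hT : IsSelfAdjoint T) {h k : ℝ} (hk : 0 < k)
    (hfull : Full {x | ∃ (p q : ℤ) (d : B), |(p : ℝ) * k| ≤ ‖T‖ + 1 ∧
      |(q : ℝ) * k| ≤ ‖T‖ + 1 ∧ h ≤ |(p : ℝ) * k - q * k| ∧ cut T k p * d * cut T k q = x})
    {P ρ τ θ : ℝ} (hP : 0 < P) (hρ : 0 < ρ) (hθ : 0 < θ) (hrange : P ≤ n * h)
    (hsmall : n * (2 * k) < ρ) {F : ℝ → ℝ} (hF : Continuous F) (hF0 : ∀ x, 0 ≤ F x)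
    (hbig : ∀ (m : ℤ) (x : ℝ), |x - (τ + m * P)| ≤ 2 * (‖T‖ + 1) + ρ → θ ≤ F x) :
    Full {cfc F (∑ i, c.hom i T)} := by
  classical
  set J := TwoSidedIdeal.span ({cfc F (∑ i, c.hom i T)} : Set D)
  refine c.full_cover (J := J) Finset.univ _ (fun i _ => hfull) fun g hg => ?_
  choose p q d hp hq hpq hx using fun i => hg i (Finset.mem_univ i)
  let lo : Fin n → ℤ := fun i => min (p i) (q i)
  let hi : Fin n → ℤ := fun i => max (p i) (q i)
  let uj : ℕ → Fin n → ℤ := fun j i => if (i : ℕ) < j then hi i else lo i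
  let v : ℕ → ℝ := fun j => ∑ i, (uj j i : ℝ) * k
  have hdiff : ∀ i, (hi i : ℝ) * k - lo i * k = |(p i : ℝ) * k - q i * k| := fun i => by
    rw [← sub_mul, ← sub_mul, abs_mul, abs_of_pos hk]
    congr 1
    simp only [hi, lo, Int.cast_max, Int.cast_min]
    exact max_sub_min_eq_abs' _ _
  have hv : v 0 + n * h ≤ v n := by
    have e : v n - v 0 = ∑ i, |(p i : ℝ) * k - q i * k| := by
      simp only [v, uj, ← Finset.sum_sub_distrib]
      exact Finset.sum_congr rfl fun i _ => by simp [i.2, hdiff i]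
    have : ∑ _i : Fin n, h ≤ ∑ i, |(p i : ℝ) * k - q i * k| := Finset.sum_le_sum fun i _ => hpq i
    simp at this
    linarith
  have hstep : ∀ j, j < n → v (j + 1) ≤ v j + 2 * (‖T‖ + 1) := by
    intro j hj
    have e : v (j + 1) - v j = |(p ⟨j, hj⟩ : ℝ) * k - q ⟨j, hj⟩ * k| := by
      simp only [v, ← Finset.sum_sub_distrib]
      rw [Finset.sum_eq_single_of_mem (⟨j, hj⟩ : Fin n) (Finset.mem_univ _)]
      · simp [uj, hdiff]
      · intro i _ hne
        have : (i : ℕ) ≠ j := fun e => hne (Fin.ext e)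
        have hiff : (i : ℕ) < j + 1 ↔ (i : ℕ) < j := by omega
        simp [uj, hiff]
    have := abs_sub ((p ⟨j, hj⟩ : ℝ) * k) (q ⟨j, hj⟩ * k)
    linarith [hp ⟨j, hj⟩, hq ⟨j, hj⟩]
  set m : ℤ := ⌈(v 0 - τ) / P⌉
  have hm1 : v 0 ≤ τ + m * P := by
    have := Int.le_ceil ((v 0 - τ) / P)
    rw [div_le_iff₀ hP] at this
    linarith
  have hm2 : τ + m * P ≤ v n := by
    have := (Int.ceil_lt_add_one ((v 0 - τ) / P)).le
    have h2 : ((v 0 - τ) / P + 1) * P = v 0 - τ + P := by field_simp
    nlinarith [mul_le_mul_of_nonneg_right this hP.le]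
  obtain ⟨j, -, hj⟩ := exists_near (by positivity) hm1 hm2 hstep
  set u := uj j
  have hu : ∀ i, u i = p i ∨ u i = q i := fun i => by
    simp only [u, uj, hi, lo]
    split_ifs
    · exact max_choice _ _
    · exact min_choice _ _
  have hmem : c.prod Finset.univ (fun i => cut T k (u i)) ∈ J := by
    refine prod_cut_mem c hT hk u hF hF0 hθ hρ (fun x hx => hbig m x ?_) hsmall
      (TwoSidedIdeal.subset_span rfl)
    have := abs_sub_le x (v j) (τ + m * P)
    linarith
  set U := Finset.univ.filter fun i => u i = p i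
  set V := Finset.univ.filter fun i => ¬u i = p i
  have hUV : Disjoint U V := Finset.disjoint_filter_filter_not _ _ _
  have hun : U ∪ V = Finset.univ := Finset.filter_union_filter_not_eq _ _
  rw [← hun, c.prod_union hUV] at hmem ⊢
  have e1 : c.prod U g
      = c.prod U (fun i => cut T k (u i)) * c.prod U (fun i => d i * cut T k (q i)) := by
    rw [← c.prod_mul]
    exact c.prod_congr fun i hi => by rw [(Finset.mem_filter.1 hi).2, ← mul_assoc, hx i]
  have e2 : c.prod V g
      = c.prod V (fun i => cut T k (p i) * d i) * c.prod V (fun i => cut T k (u i)) := by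
    rw [← c.prod_mul]
    exact c.prod_congr fun i hi => by
      rw [(hu i).resolve_left (Finset.mem_filter.1 hi).2, hx i]
  rw [e1, e2, (commute_prod_prod c hUV _ _).mul_mul_mul_comm]
  rw [(commute_prod_prod c hUV (fun i => cut T k (u i)) (fun i => cut T k (p i) * d i)).eq]
  simp only [mul_assoc]
  rw [(commute_prod_prod c hUV (fun i => d i * cut T k (q i)) (fun i => cut T k (u i))).eq,
    ← mul_assoc (c.prod U fun i => cut T k (u i))]
  exact J.mul_mem_left _ _ (J.mul_mem_right _ _ hmem)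

open Real in
/-- The sine is large near the middle of each period. -/
theorem sin_large {R lam : ℝ} (hR0 : 0 < R) (hlam : lam = 1 / (12 * R)) (m : ℤ) (x : ℝ)
    (hx : |x - (π / 2 / lam + m * (2 * π / lam))| ≤ 2 * R + R) : 9 / 10 ≤ sin (lam * x) := by
  have hlam0 : 0 < lam := by rw [hlam]; positivity
  set y := lam * x - π / 2 - m * (2 * π)
  have e : lam * (x - (π / 2 / lam + m * (2 * π / lam))) = y := by
    simp only [y]; field_simp; ring
  have hy : |y| ≤ 1 / 4 := by
    rw [← e, abs_mul, abs_of_pos hlam0]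
    calc lam * _ ≤ lam * (2 * R + R) := mul_le_mul_of_nonneg_left hx hlam0.le
      _ = 1 / 4 := by rw [hlam]; field_simp; ring
  have e2 : sin (lam * x) = cos y := by
    rw [show lam * x = y + π / 2 + m * (2 * π) by simp only [y]; ring, sin_add_int_mul_two_pi,
      sin_add_pi_div_two]
  rw [e2]
  have := one_sub_sq_div_two_le_cos (x := y)
  have hy2 : y ^ 2 ≤ (1 / 4) ^ 2 := by
    rw [← sq_abs y]; exact pow_le_pow_left₀ (abs_nonneg _) hy 2
  linarith

end Vale.Agent.P101.Stage2

namespace Vale.Agent.P101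

universe u

open Real in
/-- Stage 2. -/
theorem stage2_ok : Stage2.{u} := by
  intro B _ hB
  obtain ⟨T, hT, hfull⟩ := hB
  obtain ⟨h, h0, h1, hfar⟩ := Stage2.full_far hT hfull
  set R := ‖T‖ + 1 with hR
  have hR0 : 0 < R := by positivity
  set lam := 1 / (12 * R) with hlam
  have hlam0 : 0 < lam := by positivity
  set n := ⌈2 * π / (lam * h)⌉₊
  have hn : 2 * π / lam ≤ n * h := by
    have := Nat.le_ceil (2 * π / (lam * h))
    exact (div_le_iff₀ h0).1 ((div_div _ _ _).trans_le this)
  refine ⟨n, fun D _ c => ?_⟩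
  set k := min (h / 2) (R / (3 * ((n : ℝ) + 1))) with hk
  have hk0 : 0 < k := lt_min (by positivity) (by positivity)
  have hsmall : (n : ℝ) * (2 * k) < R := by
    have h3 : k * (3 * ((n : ℝ) + 1)) ≤ R := (le_div_iff₀ (by positivity)).1 (min_le_right _ _)
    nlinarith [mul_nonneg (Nat.cast_nonneg (α := ℝ) n) hk0.le]
  set F : ℝ → ℝ := fun x => max (sin (lam * x) - 1 / 2) 0
  set G : ℝ → ℝ := fun x => max (-sin (lam * x) - 1 / 2) 0
  have hFc : Continuous F := by fun_prop
  have hGc : Continuous G := by fun_prop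
  set S := ∑ i, c.hom i T
  have hS : IsSelfAdjoint S := isSelfAdjoint_sum _ fun i _ => hT.map (c.hom i)
  have hsin := fun (m : ℤ) (x : ℝ) => Stage2.sin_large (x := x) (m := m) hR0 hlam
  have hkey := fun (τ : ℝ) => @Stage2.full_cfc B D _ _ n c T hT h k hk0 (hfar k hk0 (min_le_left _ _))
    (2 * π / lam) R τ
  refine ⟨cfc F S, cfc G S, cfc_predicate _ _, cfc_predicate _ _, ?_, ?_, ?_⟩
  · rw [← cfc_mul F G S hFc.continuousOn hGc.continuousOn, ← cfc_zero ℝ S]
    refine cfc_congr fun x _ => ?_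
    rcases le_total (sin (lam * x)) 0 with h' | h'
    · have : F x = 0 := max_eq_right (by linarith)
      simp [this]
    · have : G x = 0 := max_eq_right (by linarith)
      simp [this]
  · refine hkey (π / 2 / lam) (θ := 2 / 5) (by positivity) hR0 (by norm_num) hn hsmall hFc
      (fun x => le_max_right _ _) fun m x hx => ?_
    exact le_trans (by linarith [hsin m x hx]) (le_max_left _ _)
  · rw [← cfc_mul G G S hGc.continuousOn hGc.continuousOn]
    refine hkey (π / 2 / lam + π / lam) (θ := (2 / 5) ^ 2) (by positivity) hR0 (by norm_num) hn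
      hsmall (hGc.mul hGc) (fun x => mul_self_nonneg _) fun m x hx => ?_
    have h' := hsin m (x - π / lam) (le_of_eq_of_le (by ring_nf) hx)
    rw [mul_sub, mul_div_cancel₀ _ hlam0.ne', sin_sub_pi] at h'
    have h2 : 2 / 5 ≤ G x := le_trans (by linarith) (le_max_left _ _)
    nlinarith

end Vale.Agent.P101
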