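import Vale.Agent.P101.Basic
import Vale.Agent.P101.Colour

/-! Stage 3: a full element of square zero from two orthogonal full elements. -/

noncomputable section

namespace Vale.Agent.P101

universe u

/-- A product over copies vanishes with one of its factors. -/
theorem Copies.prod_eq_zero {B D : Type*} [CStarAlgebra B] [CStarAlgebra D] {ι : Type*}
    [DecidableEq ι] (c : Copies B D ι) {s : Finset ι} {i : ι} (hi : i ∈ s) {g : ι → B}
    (h : g i = 0) : c.prod s g = 0 := by
  rw [← Finset.insert_erase hi, c.prod_insert (Finset.notMem_erase i s), h, map_zero, zero_mul]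

/-- Stage 3. -/
theorem stage3_ok : Stage3.{u} := by
  intro B _ hB
  obtain ⟨e, e', hse, hse', hee', he, he'⟩ := hB
  have he'e : e' * e = 0 := by
    simpa [hse.star_eq, hse'.star_eq] using congrArg star hee'
  obtain ⟨L, p, x₀, q, hx₀, h1⟩ := full_exists_sum he'
  set Y : Fin (L + 1) → B := Fin.cons 0 p with hY
  set S : Set B := {z | ∃ l a, e * Y l * (e' * e') * (a * e) = z} with hS
  have hSfull : Full S := by
    refine full_mono he (Set.singleton_subset_iff.2 ?_)
    obtain ⟨m, a, xe, b, hxe, h2⟩ := full_exists_sum he
    have hmem : ∀ k, e * p k * (e' * e') ∈ TwoSidedIdeal.span S := fun k => by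
      have hk : e * p k * (e' * e') = ∑ j, e * p k * (e' * e') * (a j * e) * b j := by
        conv_lhs => rw [← mul_one (e * p k * (e' * e')), ← h2, Finset.mul_sum]
        exact Finset.sum_congr rfl fun j _ => by rw [hxe j, ← mul_assoc, ← mul_assoc, ← mul_assoc]
      rw [hk]
      exact sum_mem fun j _ => TwoSidedIdeal.mul_mem_right _ _ _
        (TwoSidedIdeal.subset_span ⟨k.succ, a j, by simp [hY]⟩)
    have hsum : e = ∑ k, e * p k * (e' * e') * q k := by
      conv_lhs => rw [← mul_one e, ← h1, Finset.mul_sum]
      exact Finset.sum_congr rfl fun k _ => by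
        rw [show x₀ k = e' * e' from hx₀ k, ← mul_assoc, ← mul_assoc]
    rw [hsum]
    exact sum_mem fun k _ => TwoSidedIdeal.mul_mem_right _ _ _ (hmem k)
  obtain ⟨n, col, -, hhit⟩ := colour_ok L
  refine ⟨n, fun D _ c => ?_⟩
  set gP : Fin n × Fin n → Fin n → B :=
    fun r i => if i = r.1 ∨ i = r.2 then e * Y (col r.1 r.2) * e' else e with hgP
  set P : Finset (Fin n × Fin n) := Finset.univ.filter fun r => r.1 < r.2 with hP
  set X := ∑ r ∈ P, c.prod Finset.univ (gP r) with hX
  have hge : ∀ r i, ∃ z, gP r i = e * z := fun r i => by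
    by_cases h : i = r.1 ∨ i = r.2
    · exact ⟨Y (col r.1 r.2) * e', by simp [hgP, h, mul_assoc]⟩
    · exact ⟨1, by simp [hgP, h]⟩
  refine ⟨X, ?_, ?_⟩
  · rw [hX, Finset.sum_mul]
    refine Finset.sum_eq_zero fun r _ => ?_
    rw [Finset.mul_sum]
    refine Finset.sum_eq_zero fun r' _ => ?_
    rw [← c.prod_mul]
    refine c.prod_eq_zero (i := r.1) (Finset.mem_univ _) ?_
    obtain ⟨z, hz⟩ := hge r' r.1
    rw [hz]
    simp [hgP, mul_assoc, ← mul_assoc e' e, he'e]
  set J := TwoSidedIdeal.span {X} with hJ
  refine c.full_cover Finset.univ (fun _ => S) (fun i _ => hSfull) fun g hg => ?_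
  choose f a hfa using fun i => hg i (Finset.mem_univ i)
  obtain ⟨x, y, hxy, hx, hy⟩ := hhit f
  set K : Fin n → B :=
    fun i => if i = x ∨ i = y then e * Y (col x y) * (e' * e') else e with hK
  have hKmem : c.prod Finset.univ K ∈ J := by
    have hXW : X * c.prod Finset.univ (fun i => if i = x ∨ i = y then e' else 1) =
        c.prod Finset.univ K := by
      rw [hX, Finset.sum_mul, Finset.sum_eq_single (x, y)]
      · rw [← c.prod_mul]
        refine c.prod_congr fun i _ => ?_
        by_cases h : i = x ∨ i = y <;> simp [hgP, hK, h, mul_assoc]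
      · intro r hr hne
        have hr' : r.1 < r.2 := (Finset.mem_filter.1 hr).2
        rw [← c.prod_mul]
        by_cases h : x = r.1 ∨ x = r.2
        · have hy' : ¬ (y = r.1 ∨ y = r.2) := by
            rintro (h' | h')
            · rcases h with h | h
              · exact hxy.ne (h.trans h'.symm)
              · rw [← h, ← h'] at hr'
                exact hr'.not_gt hxy
            · rcases h with h | h
              · exact hne (Prod.ext h.symm h'.symm)
              · exact hxy.ne (h.trans h'.symm)
          refine c.prod_eq_zero (i := y) (Finset.mem_univ _) ?_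
          simp [hgP, hy', hee']
        · refine c.prod_eq_zero (i := x) (Finset.mem_univ _) ?_
          simp [hgP, h, hee']
      · intro h; exact absurd (by simp [hP, hxy]) h
    rw [← hXW]
    exact J.mul_mem_right _ _ (TwoSidedIdeal.subset_span rfl)
  have hfact : c.prod Finset.univ g =
      c.prod Finset.univ (fun i => if i = x ∨ i = y then 1 else e * Y (f i) * (e' * e') * a i) *
        c.prod Finset.univ K *
        c.prod Finset.univ (fun i => if i = x ∨ i = y then a i * e else 1) := by
    rw [← c.prod_mul, ← c.prod_mul]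
    refine c.prod_congr fun i _ => ?_
    rw [← hfa i]
    by_cases h : i = x ∨ i = y
    · have hf : f i = col x y := by rcases h with rfl | rfl <;> assumption
      simp [hK, h, hf]
    · simp [hK, h, mul_assoc]
  rw [hfact]
  exact J.mul_mem_right _ _ (J.mul_mem_left _ _ hKmem)

end Vale.Agent.P101
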