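import Vale.Agent.P101.Stage4.Main

/-! Stage 4: a full square-zero element and many commuting copies give the comparison relations. -/

noncomputable section

namespace Vale.Agent.P101.Stage4

open CombineN

variable {B : Type*} [CStarAlgebra B]

/-- The square root of `x * star x + star x * x`. -/
def weight (x : B) : B := cfc Real.sqrt (x * star x + star x * x)

/-- The order zero family of a square-zero element. -/
def ofNil (x : B) : Fin 2 → Fin 2 → B :=
  ![![x * star x, weight x * x], ![weight x * star x, star x * x]]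

theorem weight_mul_self (x : B) : weight x * weight x = x * star x + star x * x := by
  let := CStarAlgebra.spectralOrder B
  have := CStarAlgebra.spectralOrderedRing B
  set S := x * star x + star x * x with hS
  have h0 : 0 ≤ S := add_nonneg (mul_star_self_nonneg x) (star_mul_self_nonneg x)
  rw [weight, ← hS, ← cfc_mul Real.sqrt Real.sqrt S Real.continuous_sqrt.continuousOn
    Real.continuous_sqrt.continuousOn]
  conv_rhs => rw [← cfc_id' ℝ S]
  exact cfc_congr fun t ht => Real.mul_self_sqrt (spectrum_nonneg_of_nonneg h0 ht)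

theorem weight_sa (x : B) : star (weight x) = weight x :=
  (cfc_predicate Real.sqrt _ : IsSelfAdjoint _).star_eq

variable {x : B}

theorem sum_commute (hx : x * x = 0) : Commute (x * star x + star x * x) x := by
  show _ * _ = _ * _
  rw [add_mul, mul_add, ← mul_assoc x x, hx, zero_mul, mul_assoc (star x) x x, hx, mul_zero,
    zero_add, add_zero, mul_assoc]

theorem weight_commute (hx : x * x = 0) :
    Commute (weight x) x ∧ Commute (weight x) (star x) := by
  have h : Commute (weight x) x := Commute.cfc_real (sum_commute hx) Real.sqrt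
  have h' := h.star_star
  rw [weight_sa] at h'
  exact ⟨h, h'⟩

theorem supp_ofNil (x : B) : supp (ofNil x) = x * star x + star x * x := by
  simp [supp, ofNil, Fin.sum_univ_two]

theorem ofNil_star (hx : x * x = 0) (i j : Fin 2) : star (ofNil x i j) = ofNil x j i := by
  fin_cases i <;> fin_cases j <;>
    simp [ofNil, star_mul, weight_sa, (weight_commute hx).1.eq, (weight_commute hx).2.eq]

theorem ofNil_oz (hx : x * x = 0) : IsOrderZero (ofNil x) := by
  obtain ⟨hw, hw'⟩ := weight_commute hx
  have hww := weight_mul_self x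
  have hy : star x * star x = 0 := by rw [← star_mul, hx, star_zero]
  have z1 : ∀ y, x * (x * y) = 0 := fun y => by rw [← mul_assoc, hx, zero_mul]
  have z2 : ∀ y, star x * (star x * y) = 0 := fun y => by rw [← mul_assoc, hy, zero_mul]
  have ew : ∀ y, weight x * (weight x * y) = x * (star x * y) + star x * (x * y) := fun y => by
    rw [← mul_assoc, hww, add_mul, mul_assoc, mul_assoc]
  refine ⟨fun i j k l => ?_⟩
  rw [supp_ofNil]
  fin_cases i <;> fin_cases j <;> fin_cases k <;> fin_cases l <;>
    simp [ofNil, mul_assoc, add_mul, hw.symm.left_comm,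
      hw'.symm.left_comm, z1, z2, hx, hy, ew]

theorem ofNil_full (_hx : x * x = 0) (hfull : Full ({x} : Set B)) :
    Full ({ofNil x 0 0} : Set B) := by
  obtain ⟨N, p, y, q, hy, h1⟩ := full_exists_sum hfull
  have hy' : ∀ l, y l = x := fun l => hy l
  simp only [hy'] at h1
  set a := x * star x with ha
  set M : ℝ := ∑ l, ‖p l‖ * ‖q l‖ with hM
  have hM0 : 0 ≤ M := Finset.sum_nonneg fun l _ => by positivity
  obtain ⟨η, hη, hηM⟩ : ∃ η : ℝ, 0 < η ∧ M * η < 1 := by
    refine ⟨1 / (M + 1), by positivity, ?_⟩
    rw [mul_one_div, div_lt_one (by positivity)]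
    linarith
  set g : ℝ → ℝ := fun t => 1 / max t (η * η) with hg
  have hden : ∀ t : ℝ, 0 < max t (η * η) := fun t =>
    lt_of_lt_of_le (by positivity) (le_max_right _ _)
  have cg : Continuous g := continuous_const.div (by fun_prop) fun t => (hden t).ne'
  set ψ : ℝ → ℝ := fun t => 1 - t * g t with hψ
  have cψ : Continuous ψ := continuous_const.sub (continuous_id.mul cg)
  have hasa : IsSelfAdjoint a := IsSelfAdjoint.mul_star_self x
  have herr : ‖x - a * cfc g a * x‖ ≤ η := by
    have e1 : x - a * cfc g a * x = cfc ψ a * x := by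
      rw [hψ, cfc_sub (fun _ : ℝ => (1 : ℝ)) (fun t => t * g t) a continuousOn_const
        (continuous_id.mul cg).continuousOn, cfc_const_one ℝ a,
        cfc_mul (fun t => t) g a continuousOn_id cg.continuousOn, cfc_id' ℝ a, sub_mul, one_mul]
    rw [e1]
    refine norm_self_le hη.le ?_
    rw [CStarRing.norm_star_mul_self, ← CStarRing.norm_self_mul_star]
    have e2 : cfc ψ a * x * star (cfc ψ a * x) = cfc (fun t => ψ t * t * ψ t) a := by
      rw [cfc_mul (fun t => ψ t * t) ψ a (cψ.mul continuous_id).continuousOn cψ.continuousOn,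
        cfc_mul ψ (fun t => t) a cψ.continuousOn continuousOn_id, cfc_id' ℝ a, star_mul,
        (cfc_predicate ψ a : IsSelfAdjoint _).star_eq, ha]
      simp only [mul_assoc]
    rw [e2]
    refine norm_cfc_le (by positivity) fun t ht => ?_
    let := CStarAlgebra.spectralOrder B
    have := CStarAlgebra.spectralOrderedRing B
    have ht0 : 0 ≤ t := spectrum_nonneg_of_nonneg (mul_star_self_nonneg x) ht
    rcases le_or_gt (η * η) t with hb | hb
    · have : t ≠ 0 := by nlinarith
      simp only [hψ, hg, max_eq_left hb, mul_one_div_cancel this, sub_self, zero_mul, norm_zero]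
      positivity
    · have h01 : 0 ≤ ψ t ∧ ψ t ≤ 1 := by
        simp only [hψ, hg, max_eq_right hb.le]
        have h2 : t * (1 / (η * η)) ≤ 1 := by
          rw [mul_one_div, div_le_one (by positivity)]; exact hb.le
        have h3 : 0 ≤ t * (1 / (η * η)) := by positivity
        constructor <;> linarith
      rw [Real.norm_eq_abs, abs_of_nonneg (mul_nonneg (mul_nonneg h01.1 ht0) h01.1)]
      calc ψ t * t * ψ t ≤ 1 * (η * η) * 1 :=
            mul_le_mul (mul_le_mul h01.2 hb.le ht0 zero_le_one) h01.2 h01.1 (by positivity)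
        _ = η * η := by ring
  set u := ∑ l, p l * (a * cfc g a * x) * q l with hu
  have hmem : u ∈ TwoSidedIdeal.span ({a} : Set B) := by
    refine sum_mem fun l _ => TwoSidedIdeal.mul_mem_right _ _ _ (TwoSidedIdeal.mul_mem_left _ _ _ ?_)
    exact TwoSidedIdeal.mul_mem_right _ _ _ (TwoSidedIdeal.mul_mem_right _ _ _
      (TwoSidedIdeal.subset_span rfl))
  have hsmall : ‖1 - u‖ < 1 := by
    have e3 : 1 - u = ∑ l, p l * (x - a * cfc g a * x) * q l := by
      rw [hu, ← h1, ← Finset.sum_sub_distrib]
      exact Finset.sum_congr rfl fun l _ => by noncomm_ring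
    rw [e3]
    refine lt_of_le_of_lt ((norm_sum_le _ _).trans ?_) hηM
    rw [hM, Finset.sum_mul]
    refine Finset.sum_le_sum fun l _ => (norm_mul₃_le ..).trans ?_
    rw [mul_right_comm]
    exact mul_le_mul_of_nonneg_left herr (by positivity)
  exact one_mem_of_near hmem hsmall

theorem comparison_of_two {D : Type*} [CStarAlgebra D] (h : ComparisonN 2 0 D) : Comparison D := by
  obtain ⟨G, v, hG, hs, hr, hv, hfix⟩ := h
  obtain ⟨r, hr0⟩ := hr 0
  obtain ⟨s, hs1⟩ := hr 1
  refine ⟨G 0 1, G 0 0, G 1 1, v, r, s, hr0, hs1, ?_, ?_, ?_, ?_, hfix⟩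
  · rw [hG.mul_eq, if_neg (by decide)]
  · simp [hs, hG.mul_eq]
  · simp [hs, hG.mul_eq]
  · rw [hv, supp, Fin.sum_univ_two, sub_add_eq_sub_sub]

end Stage4

universe u

/-- Stage 4, given the colouring lemma. -/
theorem stage4_of_colour (hcolour : ColourStatement) : Stage4.{u} := by
  intro B _ hB
  obtain ⟨x, hx, hfull⟩ := hB
  obtain ⟨m, hm⟩ := Stage4.stage4N.{u, u} (Stage4.ofNil_oz hx) (Stage4.ofNil_star hx)
    (Stage4.ofNil_full hx hfull) hcolour
  exact ⟨m, fun D _ c => Stage4.comparison_of_two (hm D c)⟩

end Vale.Agent.P101
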