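import Vale.Agent.P101.Defs

/-! Fullness and products over commuting copies. -/

noncomputable section

namespace Vale.Agent.P101

section Full

variable {R R' : Type*} [Ring R] [Ring R']

theorem full_mono {S T : Set R} (h : Full S) (hST : S ⊆ TwoSidedIdeal.span T) : Full T :=
  TwoSidedIdeal.span_le.2 hST h

theorem mem_of_full {S : Set R} {J : TwoSidedIdeal R} (h : Full S) (hS : S ⊆ J) : (1 : R) ∈ J :=
  TwoSidedIdeal.span_le.2 hS h

/-- Fullness is witnessed by a finite sum. -/
theorem full_exists_sum {S : Set R} (h : Full S) :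
    ∃ (n : ℕ) (p x q : Fin n → R), (∀ i, x i ∈ S) ∧ ∑ i, p i * x i * q i = 1 := by
  have key : ∀ z : R, z ∈ TwoSidedIdeal.span S →
      ∃ (n : ℕ) (p x q : Fin n → R), (∀ i, x i ∈ S) ∧ ∑ i, p i * x i * q i = z := by
    intro z hz
    induction hz using TwoSidedIdeal.span_induction with
    | mem z hz => exact ⟨1, fun _ => 1, fun _ => z, fun _ => 1, fun _ => hz, by simp⟩
    | zero => exact ⟨0, Fin.elim0, Fin.elim0, Fin.elim0, fun i => i.elim0, by simp⟩
    | add a b _ _ ha hb =>
      obtain ⟨n, p, x, q, hx, rfl⟩ := ha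
      obtain ⟨m, p', x', q', hx', rfl⟩ := hb
      exact ⟨n + m, Fin.append p p', Fin.append x x', Fin.append q q',
        fun i => i.addCases (fun j => by simpa using hx j) (fun j => by simpa using hx' j),
        by simp [Fin.sum_univ_add]⟩
    | neg a _ ha =>
      obtain ⟨n, p, x, q, hx, rfl⟩ := ha
      exact ⟨n, fun i => -p i, x, q, hx, by simp⟩
    | left_absorb c a _ ha =>
      obtain ⟨n, p, x, q, hx, rfl⟩ := ha
      exact ⟨n, fun i => c * p i, x, q, hx, by simp [Finset.mul_sum, mul_assoc]⟩
    | right_absorb c a _ ha =>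
      obtain ⟨n, p, x, q, hx, rfl⟩ := ha
      exact ⟨n, p, x, fun i => q i * c, hx, by simp [Finset.sum_mul, mul_assoc]⟩
  exact key 1 h

theorem full_of_sum {S : Set R} {n : ℕ} {p x q : Fin n → R} (hx : ∀ i, x i ∈ S)
    (h : ∑ i, p i * x i * q i = 1) : Full S := by
  have : ∑ i, p i * x i * q i ∈ TwoSidedIdeal.span S :=
    sum_mem fun i _ => TwoSidedIdeal.mul_mem_right _ _ _
      (TwoSidedIdeal.mul_mem_left _ _ _ (TwoSidedIdeal.subset_span (hx i)))
  rwa [h] at this

theorem full_map {F : Type*} [FunLike F R R'] [RingHomClass F R R'] (φ : F) {S : Set R}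
    (h : Full S) : Full (φ '' S) := by
  obtain ⟨n, p, x, q, hx, h1⟩ := full_exists_sum h
  refine full_of_sum (p := fun i => φ (p i)) (x := fun i => φ (x i)) (q := fun i => φ (q i))
    (fun i => ⟨x i, hx i, rfl⟩) ?_
  simp [← map_mul, ← map_sum, h1]

/-- An ideal containing a near-unit of a Banach algebra is everything. -/
theorem one_mem_of_near {D : Type*} [NormedRing D] [CompleteSpace D] {J : TwoSidedIdeal D}
    {z : D} (hz : z ∈ J) (h : ‖1 - z‖ < 1) : (1 : D) ∈ J := by
  obtain ⟨w, hw⟩ := isUnit_one_sub_of_norm_lt_one h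
  rw [sub_sub_cancel] at hw
  have := J.mul_mem_left ((w⁻¹ : Dˣ) : D) z hz
  rwa [← hw, Units.inv_mul] at this

end Full

namespace Copies

variable {B D : Type*} [CStarAlgebra B] [CStarAlgebra D] {ι : Type*} (c : Copies B D ι)

theorem pairwise_comm (s : Finset ι) (g : ι → B) :
    (s : Set ι).Pairwise (Function.onFun Commute fun i => c.hom i (g i)) :=
  fun _ _ _ _ h => c.comm _ _ h _ _

/-- The product of one element from each copy in s. -/
def prod (s : Finset ι) (g : ι → B) : D :=
  s.noncommProd (fun i => c.hom i (g i)) (c.pairwise_comm s g)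

theorem prod_empty (g : ι → B) : c.prod ∅ g = 1 := Finset.noncommProd_empty _ _

theorem prod_congr {s : Finset ι} {g g' : ι → B} (h : ∀ i ∈ s, g i = g' i) :
    c.prod s g = c.prod s g' :=
  Finset.noncommProd_congr rfl (fun i hi => by rw [h i hi]) _

variable [DecidableEq ι]

theorem prod_insert {s : Finset ι} {i : ι} (hi : i ∉ s) (g : ι → B) :
    c.prod (insert i s) g = c.hom i (g i) * c.prod s g :=
  Finset.noncommProd_insert_of_notMem _ _ _ _ hi

theorem prod_insert' {s : Finset ι} {i : ι} (hi : i ∉ s) (g : ι → B) :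
    c.prod (insert i s) g = c.prod s g * c.hom i (g i) :=
  Finset.noncommProd_insert_of_notMem' _ _ _ _ hi

omit [DecidableEq ι] in
theorem prod_singleton (i : ι) (g : ι → B) : c.prod {i} g = c.hom i (g i) :=
  Finset.noncommProd_singleton _ _

omit [DecidableEq ι] in
theorem commute_prod {s : Finset ι} {i : ι} (hi : i ∉ s) (b : B) (g : ι → B) :
    Commute (c.hom i b) (c.prod s g) :=
  Finset.noncommProd_commute _ _ _ _ fun j hj => c.comm i j (ne_of_mem_of_not_mem hj hi).symm _ _

theorem prod_union {s t : Finset ι} (h : Disjoint s t) (g : ι → B) :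
    c.prod (s ∪ t) g = c.prod s g * c.prod t g :=
  Finset.noncommProd_union_of_disjoint h _ (c.pairwise_comm _ g)

theorem prod_mul (s : Finset ι) (g g' : ι → B) :
    c.prod s (fun i => g i * g' i) = c.prod s g * c.prod s g' := by
  induction s using Finset.induction_on with
  | empty => simp [prod_empty]
  | insert i s hi ih =>
    rw [c.prod_insert hi, c.prod_insert hi, c.prod_insert hi, ih, map_mul,
      (c.commute_prod hi (g' i) g).mul_mul_mul_comm]

theorem prod_subset {J : TwoSidedIdeal D} {s t : Finset ι} (h : t ⊆ s) {g : ι → B}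
    (hm : c.prod t g ∈ J) : c.prod s g ∈ J := by
  have e : s = t ∪ (s \ t) := (Finset.union_sdiff_of_subset h).symm
  rw [e, c.prod_union Finset.disjoint_sdiff]
  exact J.mul_mem_right _ _ hm

theorem prod_pair_mem {J : TwoSidedIdeal D} {s : Finset ι} {x y : ι} (hxy : x ≠ y) (hx : x ∈ s)
    (hy : y ∈ s) {g : ι → B} (hm : c.hom x (g x) * c.hom y (g y) ∈ J) : c.prod s g ∈ J :=
  c.prod_subset (t := {x, y}) (Finset.insert_subset hx (Finset.singleton_subset_iff.2 hy))
    (by rwa [c.prod_insert (by simpa using hxy), c.prod_singleton])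

/-- If all products of full families over the copies lie in an ideal, so does one. -/
theorem full_cover [Nonempty B] (s : Finset ι) (S : ι → Set B) (hS : ∀ i ∈ s, Full (S i))
    {J : TwoSidedIdeal D} (h : ∀ g : ι → B, (∀ i ∈ s, g i ∈ S i) → c.prod s g ∈ J) :
    (1 : D) ∈ J := by
  suffices key : ∀ s : Finset ι, (∀ i ∈ s, Full (S i)) → ∀ z : D,
      (∀ i ∈ s, ∀ b, Commute (c.hom i b) z) →
      (∀ g : ι → B, (∀ i ∈ s, g i ∈ S i) → c.prod s g * z ∈ J) → z ∈ J from
    key s hS 1 (fun i _ b => Commute.one_right _) fun g hg => by rw [mul_one]; exact h g hg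
  intro s
  induction s using Finset.induction_on with
  | empty =>
    intro _ z _ h
    simpa [prod_empty] using h (fun _ => Classical.arbitrary B) (by simp)
  | insert i s hi ih =>
    intro hS z hz h
    obtain ⟨n, p, x, q, hx, h1⟩ := full_exists_sum (hS i (Finset.mem_insert_self i s))
    have hk : ∀ k, c.hom i (x k) * z ∈ J := fun k => by
      refine ih (fun j hj => hS j (Finset.mem_insert_of_mem hj)) _ (fun j hj b => ?_) fun g hg => ?_
      · exact (c.comm j i (ne_of_mem_of_not_mem hj hi) _ _).mul_right (hz j (Finset.mem_insert_of_mem hj) b)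
      · have hu : ∀ j ∈ s, Function.update g i (x k) j = g j := fun j hj =>
          Function.update_of_ne (ne_of_mem_of_not_mem hj hi) _ _
        have hg' : ∀ j ∈ insert i s, Function.update g i (x k) j ∈ S j := fun j hj => by
          rcases Finset.mem_insert.1 hj with rfl | hj
          · rw [Function.update_self]; exact hx k
          · rw [hu j hj]; exact hg j hj
        have := h _ hg'
        rwa [c.prod_insert' hi, Function.update_self, c.prod_congr hu, mul_assoc] at this
    have : z = ∑ k, c.hom i (p k) * (c.hom i (x k) * z) * c.hom i (q k) := by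
      simp_rw [mul_assoc, (hz i (Finset.mem_insert_self i s) _).symm.eq, ← mul_assoc,
        ← map_mul, ← Finset.sum_mul, ← map_sum, h1, map_one, one_mul]
    rw [this]
    exact sum_mem fun k _ => J.mul_mem_right _ _ (J.mul_mem_left _ _ (hk k))

end Copies

end Vale.Agent.P101
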