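import Vale.Agent.P101.Iterate
import Vale.Agent.P101.Basic

/-! Cut-off functions and elementary facts about products over copies. -/

noncomputable section

open Finset

namespace Vale.Agent.P101.Stage4

/-- Zero up to a, one from b on. -/
def ramp (a b t : ℝ) : ℝ := max 0 (min 1 ((t - a) / (b - a)))

theorem continuous_ramp (a b : ℝ) : Continuous (ramp a b) :=
  continuous_const.max (continuous_const.min ((continuous_id.sub continuous_const).div_const _))

theorem ramp_nonneg (a b t : ℝ) : 0 ≤ ramp a b t := le_max_left _ _

theorem ramp_le_one (a b t : ℝ) : ramp a b t ≤ 1 := max_le zero_le_one (min_le_left _ _)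

theorem ramp_of_le {a b t : ℝ} (hab : a < b) (h : t ≤ a) : ramp a b t = 0 :=
  max_eq_left ((min_le_right _ _).trans (div_nonpos_of_nonpos_of_nonneg (by linarith) (by linarith)))

theorem ramp_of_ge {a b t : ℝ} (hab : a < b) (h : b ≤ t) : ramp a b t = 1 := by
  rw [ramp, min_eq_left ((one_le_div (by linarith)).2 (by linarith)), max_eq_right zero_le_one]

theorem lt_of_ramp_ne_zero {a b t : ℝ} (hab : a < b) (h : ramp a b t ≠ 0) : a < t :=
  lt_of_not_ge fun ht => h (ramp_of_le hab ht)

theorem lt_of_ramp_ne_one {a b t : ℝ} (hab : a < b) (h : ramp a b t ≠ 1) : t < b :=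
  lt_of_not_ge fun ht => h (ramp_of_ge hab ht)

variable {B D : Type*} [CStarAlgebra B] [CStarAlgebra D] {m : ℕ} (c : Copies B D (Fin m))

theorem cfc_mul_sq {n : ℕ} {E : Fin n → Fin n → B} (hE : CombineN.IsOrderZero E) (f : ℝ → ℝ)
    (i j : Fin n) : Commute (cfc f (CombineN.supp E)) (E i j) :=
  Commute.cfc_real (hE.commute_supp i j) f

theorem prod_one (s : Finset (Fin m)) : c.prod s (fun _ => 1) = 1 := by
  induction s using Finset.induction_on with
  | empty => exact c.prod_empty _
  | insert i s hi ih => rw [c.prod_insert hi, ih, map_one, mul_one]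

theorem prod_zero {s : Finset (Fin m)} {a : Fin m} (ha : a ∈ s) {g : Fin m → B} (h : g a = 0) :
    c.prod s g = 0 := by
  rw [← Finset.insert_erase ha, c.prod_insert (Finset.notMem_erase a s), h, map_zero, zero_mul]

theorem commute_prod_of {x : D} (s : Finset (Fin m)) {g : Fin m → B}
    (h : ∀ i ∈ s, Commute x (c.hom i (g i))) : Commute x (c.prod s g) :=
  Finset.noncommProd_commute _ _ _ _ h

theorem prod_mul_absorb {x : D} (s : Finset (Fin m)) {g : Fin m → B}
    (h : ∀ i ∈ s, c.hom i (g i) * x = x) : c.prod s g * x = x := by
  induction s using Finset.induction_on with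
  | empty => rw [c.prod_empty, one_mul]
  | insert i s hi ih =>
    rw [c.prod_insert hi, mul_assoc, ih fun j hj => h j (Finset.mem_insert_of_mem hj)]
    exact h i (Finset.mem_insert_self i s)

theorem star_prod (s : Finset (Fin m)) (g : Fin m → B) :
    star (c.prod s g) = c.prod s (fun i => star (g i)) := by
  induction s using Finset.induction_on with
  | empty => rw [c.prod_empty, c.prod_empty, star_one]
  | insert i s hi ih => rw [c.prod_insert hi, c.prod_insert' hi, star_mul, ih, map_star]

theorem norm_one_le' : ‖(1 : D)‖ ≤ 1 := by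
  rcases subsingleton_or_nontrivial D with h | h
  · simp [Subsingleton.elim (1 : D) 0]
  · simp

theorem norm_prod_le {K : ℝ} (s : Finset (Fin m)) {g : Fin m → B} (hg : ∀ i ∈ s, ‖g i‖ ≤ K) :
    ‖c.prod s g‖ ≤ K ^ s.card := by
  induction s using Finset.induction_on with
  | empty => rw [c.prod_empty, Finset.card_empty, pow_zero]; exact norm_one_le'
  | insert i s hi ih =>
    rw [c.prod_insert hi, Finset.card_insert_of_notMem hi, pow_succ']
    exact (norm_mul_le _ _).trans (mul_le_mul
      ((NonUnitalStarAlgHom.norm_apply_le (c.hom i) (g i)).trans (hg i (Finset.mem_insert_self i s)))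
      (ih fun j hj => hg j (Finset.mem_insert_of_mem hj)) (norm_nonneg _)
      ((norm_nonneg _).trans (hg i (Finset.mem_insert_self i s))))

/-- A left ideal containing every product of one element per copy from a family that generates
the whole algebra as a left ideal is everything. -/
theorem left_cover {N : ℕ} (a s : Fin (N + 1) → B) (h1 : ∑ l, a l * s l = 1) (J : Submodule D D)
    (h : ∀ f : Fin m → Fin (N + 1), c.prod Finset.univ (fun i => s (f i)) ∈ J) : (1 : D) ∈ J := by
  have key : ∀ (t : Finset (Fin m)) (z : D), (∀ i ∈ t, ∀ b, Commute (c.hom i b) z) →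
      (∀ f : Fin m → Fin (N + 1), c.prod t (fun i => s (f i)) * z ∈ J) → z ∈ J := by
    intro t
    induction t using Finset.induction_on with
    | empty =>
      intro z _ h
      simpa [c.prod_empty] using h (fun _ => 0)
    | insert i t hi ih =>
      intro z hz h
      have hk : ∀ k, c.hom i (s k) * z ∈ J := fun k => by
        refine ih _ (fun j hj b => ?_) fun f => ?_
        · exact (c.comm j i (ne_of_mem_of_not_mem hj hi) _ _).mul_right
            (hz j (Finset.mem_insert_of_mem hj) b)
        · have hu : ∀ j ∈ t, s (Function.update f i k j) = s (f j) := fun j hj => by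
            rw [Function.update_of_ne (ne_of_mem_of_not_mem hj hi)]
          have := h (Function.update f i k)
          rwa [c.prod_insert' hi, Function.update_self, c.prod_congr hu, mul_assoc] at this
      have : z = ∑ k, c.hom i (a k) • (c.hom i (s k) * z) := by
        simp only [smul_eq_mul, ← mul_assoc, ← map_mul]
        rw [← Finset.sum_mul, ← map_sum, h1, map_one, one_mul]
      rw [this]
      exact sum_mem fun k _ => J.smul_mem _ (hk k)
  exact key Finset.univ 1 (fun i _ b => Commute.one_right _) fun f => by rw [mul_one]; exact h f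

end Vale.Agent.P101.Stage4
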