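import Mathlib

/-! An exact polar decomposition: if a self-adjoint E is a left multiple of r, then there is w
in the closure of r D with star w * w = E * E. -/

noncomputable section

open Filter Topology

namespace Vale.Agent.P101

namespace Polar

variable {D : Type*} [CStarAlgebra D] {r E Y : D}

theorem spec_nonneg {t : ℝ} (ht : t ∈ spectrum ℝ (star r * r)) : 0 ≤ t := by
  let := CStarAlgebra.spectralOrder D
  have := CStarAlgebra.spectralOrderedRing D
  exact spectrum_nonneg_of_nonneg (star_mul_self_nonneg r) ht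

theorem norm_conj_cfc_le (r : D) (s : ℝ → ℝ) (hs : Continuous s) {c : ℝ} (hc : 0 ≤ c)
    (h : ∀ t, 0 ≤ t → |t * (s t * s t)| ≤ c) :
    ‖r * cfc (fun t => s t * s t) (star r * r) * star r‖ ≤ c := by
  have e : r * cfc (fun t => s t * s t) (star r * r) * star r
      = r * cfc s (star r * r) * star (r * cfc s (star r * r)) := by
    rw [cfc_mul s s _, star_mul, (cfc_predicate s (star r * r) : IsSelfAdjoint _).star_eq]
    noncomm_ring
  rw [e, CStarRing.norm_self_mul_star, ← CStarRing.norm_star_mul_self, star_mul,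
    (cfc_predicate s (star r * r) : IsSelfAdjoint _).star_eq]
  have e2 : cfc s (star r * r) * star r * (r * cfc s (star r * r))
      = cfc (fun t => s t * id t * s t) (star r * r) := by
    rw [cfc_mul (fun t => s t * id t) s _, cfc_mul s id _, cfc_id ℝ (star r * r)]
    noncomm_ring
  rw [e2]
  refine norm_cfc_le hc fun t ht => ?_
  rw [Real.norm_eq_abs, id_eq, show s t * t * s t = t * (s t * s t) by ring]
  exact h t (spec_nonneg ht)

theorem sandwich (hE : IsSelfAdjoint E) (h : Y * r = E) (s : ℝ → ℝ) (hs : Continuous s) {c : ℝ}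
    (hc : 0 ≤ c) (hb : ∀ t, 0 ≤ t → |t * (s t * s t)| ≤ c) :
    ‖E * cfc (fun t => s t * s t) (star r * r) * E‖ ≤ c * (‖Y‖ * ‖Y‖) := by
  have hE' : E = star r * star Y := by rw [← star_mul, h, hE.star_eq]
  have e : E * cfc (fun t => s t * s t) (star r * r) * E
      = Y * (r * cfc (fun t => s t * s t) (star r * r) * star r) * star Y := by
    nth_rewrite 1 [← h]
    rw [hE']
    noncomm_ring
  rw [e]
  refine (norm_mul₃_le ..).trans ?_
  rw [norm_star]
  nlinarith [norm_conj_cfc_le r s hs hc hb, norm_nonneg Y,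
    mul_nonneg (norm_nonneg Y) (norm_nonneg Y)]

theorem key (hE : IsSelfAdjoint E) (g : ℝ → ℝ) (hg : Continuous g) :
    star (r * cfc g (star r * r) * E) * (r * cfc g (star r * r) * E)
      = E * cfc (fun t => g t * id t * g t) (star r * r) * E := by
  rw [star_mul, star_mul, (cfc_predicate g (star r * r) : IsSelfAdjoint _).star_eq, hE.star_eq,
    cfc_mul (fun t => g t * id t) g _, cfc_mul g id _, cfc_id ℝ (star r * r)]
  noncomm_ring

/-- The regularised inverse square root. -/
def f (e t : ℝ) : ℝ := 1 / Real.sqrt (max t 0 + e)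

theorem f_pos {e : ℝ} (he : 0 < e) (t : ℝ) : 0 < Real.sqrt (max t 0 + e) :=
  Real.sqrt_pos.2 (add_pos_of_nonneg_of_pos (le_max_right _ _) he)

@[fun_prop]
theorem f_cont {e : ℝ} (he : 0 < e) : Continuous (f e) :=
  continuous_const.div (by fun_prop) fun t => (f_pos he t).ne'

theorem step {e t : ℝ} (he : 0 < e) (ht : 0 ≤ t) :
    0 ≤ Real.sqrt t - t * f e t ∧ Real.sqrt t - t * f e t ≤ Real.sqrt e := by
  have hS := f_pos he t
  have hm : max t 0 = t := max_eq_left ht
  simp only [f, hm] at hS ⊢
  have h1 : Real.sqrt t ≤ Real.sqrt (t + e) := Real.sqrt_le_sqrt (by linarith)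
  have h2 : Real.sqrt t * Real.sqrt t = t := Real.mul_self_sqrt ht
  have h3 : Real.sqrt (t + e) ≤ Real.sqrt t + Real.sqrt e := by
    rw [Real.sqrt_le_left (by positivity)]
    nlinarith [Real.sqrt_nonneg t, Real.sqrt_nonneg e, Real.mul_self_sqrt he.le]
  have e' : Real.sqrt t - t * (1 / Real.sqrt (t + e))
      = Real.sqrt t * (Real.sqrt (t + e) - Real.sqrt t) / Real.sqrt (t + e) := by
    field_simp
    linarith [h2]
  rw [e']
  refine ⟨div_nonneg (mul_nonneg (Real.sqrt_nonneg t) (by linarith)) hS.le, ?_⟩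
  rw [div_le_iff₀ hS, mul_comm (Real.sqrt e)]
  exact mul_le_mul h1 (by linarith) (by linarith) hS.le

theorem cauchy_bound (hE : IsSelfAdjoint E) (h : Y * r = E) {c e e' : ℝ} (he : 0 < e)
    (he' : 0 < e') (hec : e ≤ c) (hec' : e' ≤ c) :
    ‖r * cfc (f e) (star r * r) * E - r * cfc (f e') (star r * r) * E‖
      ≤ Real.sqrt c * ‖Y‖ := by
  have hd : r * cfc (f e) (star r * r) * E - r * cfc (f e') (star r * r) * E
      = r * cfc (fun t => f e t - f e' t) (star r * r) * E := by
    rw [cfc_sub (f e) (f e') _ (f_cont he).continuousOn (f_cont he').continuousOn]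
    noncomm_ring
  have hdc : Continuous fun t => f e t - f e' t := (f_cont he).sub (f_cont he')
  let s : ℝ → ℝ := fun t => Real.sqrt (max t 0) * (f e t - f e' t)
  have hs : Continuous s := (Real.continuous_sqrt.comp (by fun_prop)).mul hdc
  have e2 : cfc (fun t => (f e t - f e' t) * id t * (f e t - f e' t)) (star r * r)
      = cfc (fun t => s t * s t) (star r * r) := by
    refine cfc_congr fun t ht => ?_
    simp only [s, id_eq, max_eq_left (spec_nonneg ht)]
    linear_combination -((f e t - f e' t) ^ 2) * Real.mul_self_sqrt (spec_nonneg ht)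
  have hb : ∀ t, 0 ≤ t → |t * (s t * s t)| ≤ c := fun t ht => by
    have hsq : t * (s t * s t) = (t * f e t - t * f e' t) ^ 2 := by
      simp only [s, max_eq_left ht]
      linear_combination (t * (f e t - f e' t) ^ 2) * Real.mul_self_sqrt ht
    obtain ⟨p1, p2⟩ := step he ht
    obtain ⟨q1, q2⟩ := step he' ht
    have := Real.sqrt_le_sqrt hec
    have := Real.sqrt_le_sqrt hec'
    rw [hsq, abs_of_nonneg (sq_nonneg _), ← Real.sq_sqrt (he.le.trans hec)]
    exact sq_le_sq' (by linarith) (by linarith)
  have hc : 0 ≤ c := he.le.trans hec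
  rw [← abs_norm (_ - _), ← abs_of_nonneg (mul_nonneg (Real.sqrt_nonneg c) (norm_nonneg Y))]
  refine sq_le_sq.1 ?_
  rw [sq, sq, ← CStarRing.norm_star_mul_self, hd, key hE _ hdc, e2,
    mul_mul_mul_comm (Real.sqrt c) ‖Y‖ (Real.sqrt c) ‖Y‖, Real.mul_self_sqrt hc]
  exact sandwich hE h s hs hc hb

theorem limit_bound (hE : IsSelfAdjoint E) (h : Y * r = E) {e : ℝ} (he : 0 < e) :
    ‖star (r * cfc (f e) (star r * r) * E) * (r * cfc (f e) (star r * r) * E) - E * E‖
      ≤ e * (‖Y‖ * ‖Y‖) := by
  let s : ℝ → ℝ := fun t => Real.sqrt e * f e t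
  have hs : Continuous s := continuous_const.mul (f_cont he)
  have hg : Continuous fun t => f e t * id t * f e t :=
    ((f_cont he).mul continuous_id).mul (f_cont he)
  have h1 : cfc (fun t => f e t * id t * f e t + s t * s t) (star r * r) = 1 := by
    rw [cfc_congr (g := fun _ => (1 : ℝ)) (fun t ht => ?_), cfc_const_one ℝ (star r * r)]
    have h1 := f_pos he t
    simp only [s, f, id_eq, max_eq_left (spec_nonneg ht)] at h1 ⊢
    field_simp
    rw [Real.sq_sqrt he.le, Real.sq_sqrt (by linarith [spec_nonneg ht])]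
  rw [cfc_add (a := star r * r) (fun t => f e t * id t * f e t) (fun t => s t * s t)
    hg.continuousOn (hs.mul hs).continuousOn] at h1
  have e0 : star (r * cfc (f e) (star r * r) * E) * (r * cfc (f e) (star r * r) * E) - E * E
      = -(E * cfc (fun t => s t * s t) (star r * r) * E) := by
    rw [key hE _ (f_cont he), eq_neg_iff_add_eq_zero, sub_add_eq_add_sub, ← add_mul, ← mul_add,
      h1, mul_one, sub_self]
  rw [e0, norm_neg]
  refine sandwich hE h s hs he.le fun t ht => ?_
  have h1 := f_pos he t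
  simp only [s, f, max_eq_left ht] at h1 ⊢
  rw [abs_of_nonneg (mul_nonneg ht (mul_self_nonneg _))]
  have h2 : Real.sqrt (t + e) * Real.sqrt (t + e) = t + e := Real.mul_self_sqrt (by linarith)
  rw [show t * (Real.sqrt e * (1 / Real.sqrt (t + e)) * (Real.sqrt e * (1 / Real.sqrt (t + e))))
    = (Real.sqrt e * Real.sqrt e) * t / (Real.sqrt (t + e) * Real.sqrt (t + e)) by ring,
    h2, Real.mul_self_sqrt he.le, div_le_iff₀ (by linarith)]
  nlinarith

end Polar

open Polar in
/-- If a self-adjoint E is a left multiple of r, then some w with star w * w = E * E is fixed by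
whatever fixes r from the left. -/
theorem exists_polar {D : Type*} [CStarAlgebra D] {r E Y : D} (hE : IsSelfAdjoint E)
    (h : Y * r = E) : ∃ w : D, star w * w = E * E ∧ ∀ P : D, P * r = r → P * w = w := by
  let e : ℕ → ℝ := fun k => 1 / ((k : ℝ) + 1)
  have epos : ∀ k, 0 < e k := fun k => by positivity
  have elim : Tendsto e atTop (𝓝 0) := tendsto_one_div_add_atTop_nhds_zero_nat
  let w : ℕ → D := fun k => r * cfc (f (e k)) (star r * r) * E
  have hle : ∀ {N k : ℕ}, N ≤ k → e k ≤ e N := fun {N k} hk =>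
    one_div_le_one_div_of_le (by positivity) (by exact_mod_cast Nat.succ_le_succ hk)
  have cauchy : CauchySeq w := by
    refine cauchySeq_of_le_tendsto_0 (fun N => Real.sqrt (e N) * ‖Y‖) (fun k m N hk hm => ?_) ?_
    · rw [dist_eq_norm]
      exact cauchy_bound hE h (epos k) (epos m) (hle hk) (hle hm)
    · simpa using (elim.sqrt).mul_const ‖Y‖
  obtain ⟨v, hv⟩ := cauchySeq_tendsto_of_complete cauchy
  refine ⟨v, tendsto_nhds_unique ((hv.star).mul hv) ?_, fun P hP => ?_⟩
  · rw [tendsto_iff_norm_sub_tendsto_zero]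
    exact squeeze_zero (fun k => norm_nonneg _) (fun k => limit_bound hE h (epos k))
      (by simpa using elim.mul_const (‖Y‖ * ‖Y‖))
  · refine tendsto_nhds_unique (tendsto_const_nhds.mul hv) (hv.congr fun k => ?_)
    simp only [w, ← mul_assoc, hP]

end Vale.Agent.P101
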