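import Mathlib

/-! Combining two commuting square-zero elements into one square-zero element, with an exact
formula for the sum of the two products with the adjoint. -/

namespace Vale.Agent.P101

variable {A : Type*} [Ring A] [StarRing A] [Algebra ℂ A] [StarModule ℂ A]

/-- A square-zero element with its weight and its grading element. -/
structure Block (u k p : A) : Prop where
  sq : u * u = 0
  k_sa : star k = k
  p_sa : star p = p
  p_u : Commute p u
  p_k : Commute p k
  u_k : u * k = p * u
  k_u : k * u = -(p * u)
  sum : star u * u + u * star u = p * p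
  k_sq : k * k = p * p

/-- Elements built from one position commute with those of the other. -/
structure Apart (u k p v l q : A) : Prop where
  uv : Commute u v
  uv' : Commute u (star v)
  ul : Commute u l
  uq : Commute u q
  kv : Commute k v
  kl : Commute k l
  kq : Commute k q
  pv : Commute p v
  pl : Commute p l
  pq : Commute p q

/-- The combined element. -/
def mix (u k p v l q : A) : A :=
  (p * u + q * v) + Complex.I • (k * v - u * l)

variable {u k p v l q : A}

omit [Algebra ℂ A] [StarModule ℂ A] in
theorem Block.p_su (b : Block u k p) : Commute p (star u) := by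
  have := b.p_u.star_star
  rwa [b.p_sa] at this

omit [Algebra ℂ A] [StarModule ℂ A] in
theorem Block.k_su (b : Block u k p) : k * star u = p * star u := by
  have h := congrArg star b.u_k
  rwa [star_mul, star_mul, b.k_sa, b.p_sa, ← b.p_su.eq] at h

omit [Algebra ℂ A] [StarModule ℂ A] in
theorem Block.su_k (b : Block u k p) : star u * k = -(p * star u) := by
  have h := congrArg star b.k_u
  rwa [star_mul, star_neg, star_mul, b.k_sa, b.p_sa, ← b.p_su.eq] at h

omit [StarModule ℂ A] in
theorem mix_sq (a : Block u k p) (b : Block v l q) (c : Apart u k p v l q) :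
    mix u k p v l q * mix u k p v l q = 0 := by
  have AA : p * u * (p * u) = 0 := by
    rw [a.p_u.symm.mul_mul_mul_comm, a.sq, mul_zero]
  have BB : q * v * (q * v) = 0 := by
    rw [b.p_u.symm.mul_mul_mul_comm, b.sq, mul_zero]
  have CC : k * v * (k * v) = 0 := by
    rw [c.kv.symm.mul_mul_mul_comm, b.sq, mul_zero]
  have DD : u * l * (u * l) = 0 := by
    rw [c.ul.symm.mul_mul_mul_comm, a.sq, zero_mul]
  have hBA : q * v * (p * u) = p * u * (q * v) :=
    ((c.pq.mul_left c.uq).mul_right (c.pv.mul_left c.uv)).symm.eq
  have AC : p * u * (k * v) + k * v * (p * u) = 0 := by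
    rw [← mul_assoc, mul_assoc p u k, a.u_k, mul_assoc k v, ← (c.pv.mul_left c.uv).eq,
      ← mul_assoc k, ← mul_assoc k p u, ← a.p_k.eq, mul_assoc p k u, a.k_u, mul_neg, neg_mul,
      add_neg_cancel]
  have AD : p * u * (u * l) + u * l * (p * u) = 0 := by
    rw [← mul_assoc, mul_assoc p u u, a.sq, mul_zero, zero_mul, mul_assoc u l,
      ← (c.pl.mul_left c.ul).eq, ← mul_assoc u, ← mul_assoc u p u, ← a.p_u.eq, mul_assoc p u u,
      a.sq, mul_zero, zero_mul, add_zero]
  have BC : q * v * (k * v) + k * v * (q * v) = 0 := by
    rw [c.kv.symm.mul_mul_mul_comm, b.sq, mul_zero, b.p_u.symm.mul_mul_mul_comm, b.sq, mul_zero,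
      add_zero]
  have BD : q * v * (u * l) + u * l * (q * v) = 0 := by
    rw [← mul_assoc, ← (c.uq.mul_right c.uv).eq, mul_assoc u (q * v), mul_assoc u l,
      mul_assoc q v, b.u_k, ← mul_assoc l q v, ← b.p_k.eq, mul_assoc q l v, b.k_u, mul_neg,
      mul_neg, add_neg_cancel]
  have CD : k * v * (u * l) + u * l * (k * v) = -(2 • (p * u * (q * v))) := by
    rw [c.uv.symm.mul_mul_mul_comm, c.kl.symm.mul_mul_mul_comm, a.k_u, b.u_k, a.u_k, b.k_u,
      neg_mul, mul_neg, two_nsmul, neg_add]
  unfold mix
  set X := p * u + q * v with hX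
  set Y := k * v - u * l with hY
  have XX : X * X = 2 • (p * u * (q * v)) := by
    rw [hX, mul_add, add_mul, add_mul, AA, BB, hBA, two_nsmul]
    abel
  have YY : Y * Y = 2 • (p * u * (q * v)) := by
    rw [hY, mul_sub, sub_mul, sub_mul, CC, DD, ← neg_neg (2 • (p * u * (q * v))), ← CD]
    abel
  have XY : X * Y + Y * X = 0 := by
    rw [hX, hY, mul_sub, add_mul, add_mul, sub_mul, mul_add, mul_add]
    linear_combination (norm := abel) AC + BC - AD - BD
  clear_value X Y
  rw [mul_add, add_mul, add_mul, smul_mul_smul_comm, Complex.I_mul_I, smul_mul_assoc,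
    mul_smul_comm, XX, YY, neg_one_smul]
  calc _ = Complex.I • (X * Y + Y * X) := by rw [smul_add]; abel
    _ = 0 := by rw [XY, smul_zero]

theorem mix_sum (a : Block u k p) (b : Block v l q) (c : Apart u k p v l q) :
    star (mix u k p v l q) * mix u k p v l q + mix u k p v l q * star (mix u k p v l q)
      = (p * p + q * q) * (p * p + q * q) := by
  have cu'v : Commute (star u) v := by
    have := c.uv'.star_star
    rwa [star_star] at this
  have cu'l : Commute (star u) l := by
    have := c.ul.star_star
    rwa [b.k_sa] at this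
  have cu'q : Commute (star u) q := by
    have := c.uq.star_star
    rwa [b.p_sa] at this
  have cpv' : Commute p (star v) := by
    have := c.pv.star_star
    rwa [a.p_sa] at this
  have ckv' : Commute k (star v) := by
    have := c.kv.star_star
    rwa [a.k_sa] at this
  have cu'v' : Commute (star u) (star v) := c.uv.star_star
  have sA : star (p * u) = p * star u := by rw [star_mul, a.p_sa, a.p_su.eq]
  have sB : star (q * v) = q * star v := by rw [star_mul, b.p_sa, b.p_su.eq]
  have sC : star (k * v) = k * star v := by rw [star_mul, a.k_sa, ckv'.eq]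
  have sD : star (u * l) = star u * l := by rw [star_mul, b.k_sa, cu'l.eq]
  have AA : p * star u * (p * u) + p * u * (p * star u) = p * p * (p * p) := by
    rw [a.p_su.symm.mul_mul_mul_comm, a.p_u.symm.mul_mul_mul_comm, ← mul_add, a.sum]
  have BB : q * star v * (q * v) + q * v * (q * star v) = q * q * (q * q) := by
    rw [b.p_su.symm.mul_mul_mul_comm, b.p_u.symm.mul_mul_mul_comm, ← mul_add, b.sum]
  have CC : k * star v * (k * v) + k * v * (k * star v) = p * p * (q * q) := by
    rw [ckv'.symm.mul_mul_mul_comm, c.kv.symm.mul_mul_mul_comm, ← mul_add, b.sum, a.k_sq]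
  have DD : star u * l * (u * l) + u * l * (star u * l) = p * p * (q * q) := by
    rw [c.ul.symm.mul_mul_mul_comm, cu'l.symm.mul_mul_mul_comm, ← add_mul, a.sum, b.k_sq]
  have cBA : ∀ x, Commute x q → Commute x v → Commute p q → Commute p v →
      q * v * (p * x) = p * x * (q * v) := fun x h1 h2 h3 h4 =>
    ((h3.mul_left h1).mul_right (h4.mul_left h2)).symm.eq
  have cBA' : q * star v * (p * u) = p * u * (q * star v) :=
    ((c.pq.mul_left c.uq).mul_right (cpv'.mul_left c.uv')).symm.eq
  have AB : p * star u * (q * v) + q * v * (p * star u) = 2 • (p * star u * (q * v)) := by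
    rw [cBA _ cu'q cu'v c.pq c.pv, two_nsmul]
  have BA : q * star v * (p * u) + p * u * (q * star v) = 2 • (p * u * (q * star v)) := by
    rw [cBA', two_nsmul]
  have AC : p * star u * (k * v) + k * v * (p * star u) = 0 := by
    rw [← mul_assoc, mul_assoc p (star u) k, a.su_k, mul_assoc k v,
      ← (c.pv.mul_left cu'v).eq, ← mul_assoc k, ← mul_assoc k p (star u), ← a.p_k.eq,
      mul_assoc p k (star u), a.k_su, mul_neg, neg_mul, neg_add_cancel]
  have AC' : k * star v * (p * u) + p * u * (k * star v) = 0 := by
    rw [← mul_assoc (p * u), mul_assoc p u k, a.u_k, mul_assoc k (star v),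
      ← (cpv'.mul_left c.uv').eq, ← mul_assoc k, ← mul_assoc k p u, ← a.p_k.eq,
      mul_assoc p k u, a.k_u, mul_neg, neg_mul, neg_add_cancel]
  have AD : p * star u * (u * l) + u * l * (p * star u) = p * (p * p) * l := by
    rw [← mul_assoc, mul_assoc p (star u) u, mul_assoc u l, ← (c.pl.mul_left cu'l).eq,
      ← mul_assoc u, ← mul_assoc u p (star u), ← a.p_u.eq, mul_assoc p u (star u), ← add_mul,
      ← mul_add, a.sum]
  have AD' : star u * l * (p * u) + p * u * (star u * l) = p * (p * p) * l := by
    rw [← mul_assoc (p * u), mul_assoc p u (star u), mul_assoc (star u) l,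
      ← (c.pl.mul_left c.ul).eq, ← mul_assoc (star u), ← mul_assoc (star u) p u, ← a.p_su.eq,
      mul_assoc p (star u) u, ← add_mul, ← mul_add, a.sum]
  have BC : q * star v * (k * v) + k * v * (q * star v) = k * (q * (q * q)) := by
    rw [← mul_assoc, ← (c.kq.mul_right ckv').eq, mul_assoc k (q * star v), mul_assoc q (star v),
      mul_assoc k v, ← mul_assoc v q, ← b.p_u.eq, mul_assoc q v, ← mul_add, ← mul_add, b.sum]
  have BC' : k * star v * (q * v) + q * v * (k * star v) = k * (q * (q * q)) := by
    rw [← mul_assoc (q * v), ← (c.kq.mul_right c.kv).eq, mul_assoc k (q * v), mul_assoc q v,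
      mul_assoc k (star v), ← mul_assoc (star v) q, ← b.p_su.eq, mul_assoc q (star v), ← mul_add,
      ← mul_add, b.sum]
  have BD : q * star v * (u * l) + u * l * (q * star v) = 0 := by
    rw [← mul_assoc, ← (c.uq.mul_right c.uv').eq, mul_assoc u (q * star v), mul_assoc u l,
      mul_assoc q (star v), b.su_k, ← mul_assoc l q, ← b.p_k.eq, mul_assoc q l, b.k_su,
      mul_neg, mul_neg, neg_add_cancel]
  have BD' : star u * l * (q * v) + q * v * (star u * l) = 0 := by
    rw [← mul_assoc (q * v), ← (cu'q.mul_right cu'v).eq, mul_assoc (star u) (q * v),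
      mul_assoc (star u) l, mul_assoc q v, b.u_k, ← mul_assoc l q, ← b.p_k.eq, mul_assoc q l,
      b.k_u, mul_neg, mul_neg, neg_add_cancel]
  have CD : k * star v * (u * l) + u * l * (k * star v) = 2 • (p * u * (q * star v)) := by
    rw [c.uv'.symm.mul_mul_mul_comm, c.kl.symm.mul_mul_mul_comm, a.k_u, b.su_k, a.u_k, b.k_su,
      neg_mul, mul_neg, neg_neg, two_nsmul]
  have CD' : star u * l * (k * v) + k * v * (star u * l) = 2 • (p * star u * (q * v)) := by
    rw [c.kl.symm.mul_mul_mul_comm, cu'v.symm.mul_mul_mul_comm, a.su_k, b.k_u, a.k_su, b.u_k,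
      neg_mul, mul_neg, neg_neg, two_nsmul]
  unfold mix
  have sX : star (p * u + q * v) = p * star u + q * star v := by rw [star_add, sA, sB]
  have sY : star (k * v - u * l) = k * star v - star u * l := by rw [star_sub, sC, sD]
  rw [star_add, star_smul, sX, sY, Complex.star_def, Complex.conj_I, neg_smul, ← sub_eq_add_neg]
  set X := p * u + q * v with hX
  set Y := k * v - u * l with hY
  set X' := p * star u + q * star v with hX'
  set Y' := k * star v - star u * l with hY'
  have XX : X' * X + X * X' = p * p * (p * p) + q * q * (q * q)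
      + 2 • (p * star u * (q * v)) + 2 • (p * u * (q * star v)) := by
    rw [← AA, ← BB, ← AB, ← BA, hX, hX']
    noncomm_ring
  have YY : Y' * Y + Y * Y' = p * p * (q * q) + p * p * (q * q)
      - 2 • (p * u * (q * star v)) - 2 • (p * star u * (q * v)) := by
    rw [← CD, ← CD', hY, hY']
    nth_rewrite 1 [← CC]
    rw [← DD]
    noncomm_ring
  have XY : X' * Y + Y * X' = k * (q * (q * q)) - p * (p * p) * l := by
    have e : X' * Y + Y * X' = (p * star u * (k * v) + k * v * (p * star u))
        - (p * star u * (u * l) + u * l * (p * star u))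
        + (q * star v * (k * v) + k * v * (q * star v))
        - (q * star v * (u * l) + u * l * (q * star v)) := by
      rw [hY, hX']
      noncomm_ring
    rw [e, AC, AD, BC, BD]
    abel
  have YX : Y' * X + X * Y' = k * (q * (q * q)) - p * (p * p) * l := by
    have e : Y' * X + X * Y' = (k * star v * (p * u) + p * u * (k * star v))
        - (star u * l * (p * u) + p * u * (star u * l))
        + (k * star v * (q * v) + q * v * (k * star v))
        - (star u * l * (q * v) + q * v * (star u * l)) := by
      rw [hY', hX]
      noncomm_ring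
    rw [e, AC', AD', BC', BD']
    abel
  clear_value X Y X' Y'
  have main : (X' - Complex.I • Y') * (X + Complex.I • Y)
      + (X + Complex.I • Y) * (X' - Complex.I • Y')
      = (X' * X + X * X') + (Y' * Y + Y * Y')
        + Complex.I • (X' * Y + Y * X') - Complex.I • (Y' * X + X * Y') := by
    simp only [mul_add, add_mul, mul_sub, sub_mul, smul_mul_assoc, mul_smul_comm, smul_smul,
      Complex.I_mul_I, neg_one_smul, smul_add, smul_sub, sub_neg_eq_add]
    abel
  have hqp : Commute (q * q) (p * p) :=
    (c.pq.symm.mul_right c.pq.symm).mul_left (c.pq.symm.mul_right c.pq.symm)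
  rw [main, XX, YY, XY, YX, sub_eq_add_neg _ (Complex.I • _), add_mul, mul_add, mul_add, hqp.eq]
  abel

omit [Algebra ℂ A] [StarModule ℂ A] in
/-- A square-zero element z with a central square root w of `star z * z + z * star z` gives a
block; this starts the iteration and continues it. -/
theorem Block.of_sq {z w : A} (hz : z * z = 0) (hs : star w = w) (hc : Commute w z)
    (hsum : star z * z + z * star z = w * w) :
    Block (w * z) (star z * z - z * star z) (w * w) := by
  have hc' : Commute w (star z) := by
    have := hc.star_star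
    rwa [hs] at this
  have hz' : star z * star z = 0 := by rw [← star_mul, hz, star_zero]
  have ez : z * star z * z = w * w * z := by
    rw [← hsum, add_mul, mul_assoc (star z) z z, hz, mul_zero, zero_add]
  have ez' : z * (star z * z) = w * w * z := by rw [← mul_assoc, ez]
  refine ⟨?_, by rw [star_sub, star_mul, star_mul, star_star], by rw [star_mul, hs],
    (Commute.refl w).mul_left (Commute.refl w) |>.mul_right (hc.mul_left hc),
    ?_, ?_, ?_, ?_, ?_⟩
  · rw [hc.symm.mul_mul_mul_comm, hz, mul_zero]
  · exact ((hc'.mul_left hc').mul_right (hc.mul_left hc)).sub_right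
      ((hc.mul_left hc).mul_right (hc'.mul_left hc'))
  · rw [mul_assoc w z, mul_sub, ez', ← mul_assoc z z, hz, zero_mul, sub_zero]
    simp only [mul_assoc]
  · have e : (star z * z - z * star z) * z = -(w * w * z) := by
      rw [sub_mul, mul_assoc (star z) z z, hz, mul_zero, zero_sub, ez]
    rw [← mul_assoc, ← ((hc'.mul_right hc).sub_right (hc.mul_right hc')).eq, mul_assoc w, e,
      mul_neg]
    simp only [mul_assoc]
  · rw [star_mul, hs, ← hc'.eq, hc'.symm.mul_mul_mul_comm, hc.symm.mul_mul_mul_comm, ← mul_add,
      hsum]
  · rw [← hsum, sub_mul, mul_sub, mul_sub, add_mul, mul_add, mul_add]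
    rw [show star z * z * (z * star z) = 0 by rw [mul_assoc, ← mul_assoc z z, hz, zero_mul, mul_zero],
      show z * star z * (star z * z) = 0 by
        rw [mul_assoc, ← mul_assoc (star z), hz', zero_mul, mul_zero]]
    abel

omit [StarRing A] [StarModule ℂ A] in
/-- Whatever commutes with the ingredients commutes with the combined element. -/
theorem commute_mix {x : A} (hu : Commute x u) (hk : Commute x k) (hp : Commute x p)
    (hv : Commute x v) (hl : Commute x l) (hq : Commute x q) : Commute x (mix u k p v l q) :=
  ((hp.mul_right hu).add_right (hq.mul_right hv)).add_right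
    (((hk.mul_right hv).sub_right (hu.mul_right hl)).smul_right _)

theorem commute_weight (a : Block u k p) (b : Block v l q) (c : Apart u k p v l q) :
    Commute (p * p + q * q) (mix u k p v l q) :=
  commute_mix
    ((a.p_u.mul_left a.p_u).add_left (c.uq.symm.mul_left c.uq.symm))
    ((a.p_k.mul_left a.p_k).add_left (c.kq.symm.mul_left c.kq.symm))
    (((Commute.refl p).mul_left (Commute.refl p)).add_left (c.pq.symm.mul_left c.pq.symm))
    ((c.pv.mul_left c.pv).add_left (b.p_u.mul_left b.p_u))
    ((c.pl.mul_left c.pl).add_left (b.p_k.mul_left b.p_k))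
    ((c.pq.mul_left c.pq).add_left ((Commute.refl q).mul_left (Commute.refl q)))

/-- The block of a combined pair. -/
theorem Block.mix (a : Block u k p) (b : Block v l q) (c : Apart u k p v l q) :
    Block ((p * p + q * q) * Vale.Agent.P101.mix u k p v l q)
      (star (Vale.Agent.P101.mix u k p v l q) * Vale.Agent.P101.mix u k p v l q
        - Vale.Agent.P101.mix u k p v l q * star (Vale.Agent.P101.mix u k p v l q))
      ((p * p + q * q) * (p * p + q * q)) :=
  Block.of_sq (mix_sq a b c) (by rw [star_add, star_mul, star_mul, a.p_sa, b.p_sa])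
    (commute_weight a b c) (mix_sum a b c)

end Vale.Agent.P101
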