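import Mathlib

/-! Combining two commuting order zero matrix families into one, exactly, for every matrix size. -/

noncomputable section

open Finset

namespace Vale.Agent.P101.CombineN

variable {D : Type*} [Ring D] {n : ℕ}

/-- The sum of the diagonal. -/
def supp (E : Fin n → Fin n → D) : D := ∑ i, E i i

/-- The values at the matrix units of an order zero map. -/
structure IsOrderZero (E : Fin n → Fin n → D) : Prop where
  mul_eq : ∀ i j k l, E i j * E k l = if j = k then supp E * E i l else 0

variable {E E' : Fin n → Fin n → D}

theorem IsOrderZero.commute_supp (hE : IsOrderZero E) (i l : Fin n) :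
    Commute (supp E) (E i l) := by
  have h : E i l * supp E = supp E * E i l := by
    rw [supp, Finset.mul_sum]
    simp only [hE.mul_eq, Finset.sum_ite_eq, Finset.mem_univ, if_true]
    rfl
  exact h.symm

variable (E E') in
/-- The flip applied from the left. -/
def left (i j : Fin n) : D := ∑ p, E p j * E' i p

variable (E E') in
/-- The flip applied from the right. -/
def right (i j : Fin n) : D := ∑ q, E i q * E' q j

variable (hE : IsOrderZero E) (hE' : IsOrderZero E') (hc : ∀ i j k l, Commute (E i j) (E' k l))

theorem supp_commute_left (hc : ∀ i j k l, Commute (E i j) (E' k l)) (k l : Fin n) :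
    Commute (supp E) (E' k l) := Commute.sum_left _ _ _ fun i _ => hc i i k l

theorem supp_commute_right (hc : ∀ i j k l, Commute (E i j) (E' k l)) (k l : Fin n) :
    Commute (E k l) (supp E') := Commute.sum_right _ _ _ fun i _ => hc k l i i

theorem supp_comm (hc : ∀ i j k l, Commute (E i j) (E' k l)) : Commute (supp E) (supp E') :=
  Commute.sum_right _ _ _ fun i _ => supp_commute_left hc i i

include hE in
theorem E_prod (i j k l p q : Fin n) : E i j * (E k l * E' p q) =
    if j = k then supp E * (E i l * E' p q) else 0 := by
  rw [← mul_assoc, hE.mul_eq]; split <;> simp [mul_assoc]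

include hE hc in
theorem prod_E (i j p q k l : Fin n) : E i j * E' p q * E k l =
    if j = k then supp E * (E i l * E' p q) else 0 := by
  rw [mul_assoc, ← (hc k l p q).eq, E_prod hE]

include hE' hc in
theorem E'_prod (i j k l p q : Fin n) : E' i j * (E k l * E' p q) =
    if j = p then supp E' * (E k l * E' i q) else 0 := by
  rw [← mul_assoc, ← (hc k l i j).eq, mul_assoc, hE'.mul_eq]
  split
  · rw [← mul_assoc, (supp_commute_right hc k l).eq, mul_assoc]
  · simp

include hE' hc in
theorem prod_E' (i j p q k l : Fin n) : E i j * E' p q * E' k l =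
    if q = k then supp E' * (E i j * E' p l) else 0 := by
  rw [mul_assoc, hE'.mul_eq]
  split
  · rw [← mul_assoc, (supp_commute_right hc i j).eq, mul_assoc]
  · simp

include hE hE' hc in
theorem prod_prod (i j p q k l r s : Fin n) : E i j * E' p q * (E k l * E' r s) =
    if j = k then (if q = r then supp E * (supp E' * (E i l * E' p s)) else 0) else 0 := by
  rw [Commute.mul_mul_mul_comm (hc k l p q).symm, hE.mul_eq, hE'.mul_eq]
  split_ifs
  · rw [mul_assoc, ← mul_assoc (E i l), (supp_commute_right hc i l).eq, mul_assoc]
  all_goals simp

include hE in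
theorem mul_left' (i j k l : Fin n) : E i j * left E E' k l = supp E * (E i l * E' k j) := by
  simp [left, mul_sum, E_prod hE]

include hE in
theorem mul_right' (i j k l : Fin n) :
    E i j * right E E' k l = if j = k then supp E * right E E' i l else 0 := by
  simp only [right, mul_sum, E_prod hE]
  split <;> simp

include hE hc in
theorem left_mul (i j k l : Fin n) :
    left E E' i j * E k l = if j = k then supp E * left E E' i l else 0 := by
  simp only [left, sum_mul, mul_sum, prod_E hE hc]
  split <;> simp

include hE hc in
theorem right_mul (i j k l : Fin n) : right E E' i j * E k l = supp E * (E i l * E' k j) := by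
  simp [right, sum_mul, prod_E hE hc]

include hE' hc in
theorem mul_left'' (i j k l : Fin n) :
    E' i j * left E E' k l = if j = k then supp E' * left E E' i l else 0 := by
  simp only [left, mul_sum, E'_prod hE' hc]
  split <;> simp

include hE' hc in
theorem mul_right'' (i j k l : Fin n) : E' i j * right E E' k l = supp E' * (E k j * E' i l) := by
  simp [right, mul_sum, E'_prod hE' hc]

include hE' hc in
theorem left_mul' (i j k l : Fin n) : left E E' i j * E' k l = supp E' * (E k j * E' i l) := by
  simp [left, sum_mul, prod_E' hE' hc]

include hE' hc in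
theorem right_mul' (i j k l : Fin n) :
    right E E' i j * E' k l = if j = k then supp E' * right E E' i l else 0 := by
  simp only [right, sum_mul, mul_sum, prod_E' hE' hc]
  split <;> simp

include hE hE' hc in
theorem left_left (i j k l : Fin n) :
    left E E' i j * left E E' k l = supp E * (supp E' * (E k l * E' i j)) := by
  simp [left, sum_mul, mul_sum, prod_prod hE hE' hc]

include hE hE' hc in
theorem right_right (i j k l : Fin n) :
    right E E' i j * right E E' k l = supp E * (supp E' * (E i j * E' k l)) := by
  simp [right, sum_mul, mul_sum, prod_prod hE hE' hc]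

include hE hE' hc in
theorem left_right (i j k l : Fin n) : left E E' i j * right E E' k l =
    if j = k then supp E * (supp E * (supp E' * E' i l)) else 0 := by
  simp only [left, right, sum_mul, mul_sum, prod_prod hE hE' hc]
  split
  · simp only [Finset.sum_ite_eq', mem_univ, if_true]
    rw [← mul_sum, ← mul_sum, ← sum_mul, ← supp, ← mul_assoc (supp E'),
      (supp_comm hc).symm.eq, mul_assoc]
  · simp

include hE hE' hc in
theorem right_left (i j k l : Fin n) : right E E' i j * left E E' k l =
    if j = k then supp E * (supp E' * (supp E' * E i l)) else 0 := by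
  simp only [left, right, sum_mul, mul_sum, prod_prod hE hE' hc]
  split
  · simp only [Finset.sum_ite_eq', mem_univ, if_true]
    rw [← mul_sum, ← mul_sum, ← mul_sum, ← supp, (supp_commute_right hc i l).eq]
  · simp

variable (E E') in
/-- The combined family, with coefficients a, b and w. -/
def comb (a b w : D) (i j : Fin n) : D :=
  a * E i j + b * E' i j + w * (left E E' i j - right E E' i j)

theorem supp_comb (a b w : D) :
    supp (comb E E' a b w) = a * supp E + b * supp E' := by
  have h : (∑ i, left E E' i i) = ∑ i, right E E' i i := by
    simp only [left, right]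
    rw [Finset.sum_comm]
  simp only [supp, comb, sum_add_distrib, mul_sub, sum_sub_distrib, ← mul_sum, h, sub_self,
    add_zero]

include hE hE' hc in
theorem comb_mul {a b w H : D}
    (ha : ∀ i j, Commute a (E i j) ∧ Commute a (E' i j))
    (hb : ∀ i j, Commute b (E i j) ∧ Commute b (E' i j))
    (hw : ∀ i j, Commute w (E i j) ∧ Commute w (E' i j))
    (hab : b * a = a * b) (haw : w * a = a * w) (hbw : w * b = b * w)
    (h1 : a * b + w * w * (supp E * supp E') = 0)
    (h2 : a * a * supp E - w * w * (supp E * (supp E' * supp E')) = H * a)
    (h3 : b * b * supp E' - w * w * (supp E * (supp E * supp E')) = H * b)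
    (h4 : a * w * supp E + b * w * supp E' = H * w)
    (i j k l : Fin n) :
    comb E E' a b w i j * comb E E' a b w k l =
      if j = k then H * comb E E' a b w i l else 0 := by
  have key : ∀ (u v x y : D), Commute x v → u * x * (v * y) = u * v * (x * y) :=
    fun u v x y h => Commute.mul_mul_mul_comm h u y
  have cl : ∀ (u : D), (∀ i j, Commute u (E i j) ∧ Commute u (E' i j)) →
      ∀ i j, Commute (left E E' i j) u ∧ Commute (right E E' i j) u := fun u hu i j =>
    ⟨(Commute.sum_right _ _ _ fun p _ => (hu p j).1.mul_right (hu i p).2).symm,
      (Commute.sum_right _ _ _ fun q _ => (hu i q).1.mul_right (hu q j).2).symm⟩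
  simp only [comb, mul_sub, mul_add, add_mul, sub_mul, key _ _ _ _ (ha i j).1.symm,
    key _ _ _ _ (hb i j).1.symm, key _ _ _ _ (hw i j).1.symm, key _ _ _ _ (ha i j).2.symm,
    key _ _ _ _ (hb i j).2.symm, key _ _ _ _ (hw i j).2.symm, key _ _ _ _ (cl a ha i j).1,
    key _ _ _ _ (cl a ha i j).2, key _ _ _ _ (cl b hb i j).1, key _ _ _ _ (cl b hb i j).2,
    key _ _ _ _ (cl w hw i j).1, key _ _ _ _ (cl w hw i j).2,
    hE.mul_eq, hE'.mul_eq, mul_left' hE, mul_right' hE, left_mul hE hc, right_mul hE hc,
    mul_left'' hE' hc, mul_right'' hE' hc, left_mul' hE' hc, right_mul' hE' hc,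
    left_left hE hE' hc, right_right hE hE' hc, left_right hE hE' hc, right_left hE hE' hc,
    hab, haw, hbw, (hc k l i j).symm.eq]
  have e0 : ∀ x : D, a * b * x + w * w * (supp E * (supp E' * x)) = 0 := fun x => by
    rw [← mul_assoc (supp E), ← mul_assoc (w * w), ← add_mul, h1, zero_mul]
  have e2 : ∀ x : D, a * a * (supp E * x) - w * w * (supp E * (supp E' * (supp E' * x)))
      = H * (a * x) := fun x => by
    simpa only [sub_mul, mul_assoc] using congrArg (fun d => d * x) h2
  have e3 : ∀ x : D, b * b * (supp E' * x) - w * w * (supp E * (supp E * (supp E' * x)))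
      = H * (b * x) := fun x => by
    simpa only [sub_mul, mul_assoc] using congrArg (fun d => d * x) h3
  have e4 : ∀ x : D, a * w * (supp E * x) + b * w * (supp E' * x) = H * (w * x) := fun x => by
    simpa only [add_mul, mul_assoc] using congrArg (fun d => d * x) h4
  split
  · rw [← e2, ← e3, ← e4, ← e4]
    linear_combination (norm := noncomm_ring) e0 (E i j * E' k l) + e0 (E k l * E' i j)
  · simp only [mul_zero, add_zero, sub_zero, zero_add, zero_sub]
    linear_combination (norm := noncomm_ring) e0 (E i j * E' k l) + e0 (E k l * E' i j)

section Algebra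

variable [Algebra ℂ D]

variable (E E') in
/-- The combination of two commuting families into one. -/
def combine : Fin n → Fin n → D :=
  comb E E' (supp E ^ 3) (supp E' ^ 3) (Complex.I • (supp E * supp E'))

variable (E E') in
theorem supp_combine : supp (combine E E') = supp E ^ 4 + supp E' ^ 4 := by
  rw [combine, supp_comb, ← pow_succ, ← pow_succ]

include hE hE' hc in
theorem combine_isOrderZero : IsOrderZero (combine E E') := by
  have hs : Commute (supp E) (supp E') := supp_comm hc
  have cE : ∀ i j, Commute (supp E) (E i j) ∧ Commute (supp E) (E' i j) :=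
    fun i j => ⟨hE.commute_supp i j, supp_commute_left hc i j⟩
  have cE' : ∀ i j, Commute (supp E') (E i j) ∧ Commute (supp E') (E' i j) :=
    fun i j => ⟨(supp_commute_right hc i j).symm, hE'.commute_supp i j⟩
  refine ⟨fun i j k l => ?_⟩
  have := comb_mul (a := supp E ^ 3) (b := supp E' ^ 3) (w := Complex.I • (supp E * supp E'))
    (H := supp E ^ 4 + supp E' ^ 4) hE hE' hc
    (fun i j => ⟨(cE i j).1.pow_left 3, (cE i j).2.pow_left 3⟩)
    (fun i j => ⟨(cE' i j).1.pow_left 3, (cE' i j).2.pow_left 3⟩)
    (fun i j => ⟨((cE i j).1.mul_left (cE' i j).1).smul_left _,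
      ((cE i j).2.mul_left (cE' i j).2).smul_left _⟩)
    (hs.symm.pow_pow 3 3).eq
    ((((Commute.refl _).mul_left hs.symm).smul_left Complex.I).pow_right 3).eq
    (((hs.mul_left (Commute.refl _)).smul_left Complex.I).pow_right 3).eq
    (by simp [pow_succ, mul_assoc, smul_smul, hs.eq, hs.left_comm])
    (by simp [pow_succ, mul_assoc, smul_smul, hs.eq, hs.left_comm, add_mul])
    (by simp [pow_succ, mul_assoc, smul_smul, hs.eq, hs.left_comm, add_mul, add_comm])
    (by simp [pow_succ, mul_assoc, hs.eq, hs.left_comm, add_mul])
    i j k l
  rw [supp_combine]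
  exact this

include hc in
theorem star_combine [StarRing D] [StarModule ℂ D]
    (hE : IsOrderZero E) (hE' : IsOrderZero E')
    (sE : ∀ i j, star (E i j) = E j i) (sE' : ∀ i j, star (E' i j) = E' j i) (i j : Fin n) :
    star (combine E E' i j) = combine E E' j i := by
  have sh : star (supp E) = supp E := by simp [supp, star_sum, sE]
  have sh' : star (supp E') = supp E' := by simp [supp, star_sum, sE']
  have sl : star (left E E' i j) = right E E' j i := by
    simp only [left, right, star_sum, star_mul, sE, sE']
    exact sum_congr rfl fun p _ => (hc j p p i).eq.symm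
  have sr : star (right E E' i j) = left E E' j i := by
    simp only [left, right, star_sum, star_mul, sE, sE']
    exact sum_congr rfl fun p _ => (hc p i j p).eq.symm
  have cl : Commute (supp E * supp E') (left E E' j i - right E E' j i) := by
    refine Commute.sub_right ?_ ?_ <;> refine Commute.sum_right _ _ _ fun p _ => ?_
    · exact ((hE.commute_supp p i).mul_right (supp_commute_left hc j p)).mul_left
        ((supp_commute_right hc p i).symm.mul_right (hE'.commute_supp j p))
    · exact ((hE.commute_supp j p).mul_right (supp_commute_left hc p i)).mul_left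
        ((supp_commute_right hc j p).symm.mul_right (hE'.commute_supp p i))
  simp only [combine, comb, star_add, star_mul, star_pow, star_smul, star_sub, sh, sh', sl, sr, sE,
    sE', (supp_comm hc).symm.eq]
  rw [((hE.commute_supp j i).pow_left 3).eq, ((hE'.commute_supp j i).pow_left 3).eq]
  simp only [smul_mul_assoc, Complex.star_def, Complex.conj_I, neg_smul]
  rw [cl.eq]
  simp only [mul_neg, mul_smul_comm]
  rw [← smul_neg, ← neg_mul, neg_sub]

end Algebra

end Vale.Agent.P101.CombineN
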