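import Mathlib

/-! An exact Douglas factorisation: if a positive multiple of E² lies below r*r and E u = u,
then u*u = w*w for some w in the closure of r D. -/

noncomputable section

open Filter Topology

namespace Vale.Agent.P101

variable {D : Type*} [CStarAlgebra D]

/-- Left multipliers fixing r fix everything in the closure of r D. -/
theorem mul_eq_of_mem_closure_range {r w G : D} (hw : w ∈ closure (Set.range fun d => r * d))
    (hG : G * r = r) : G * w = w := by
  have hcl : IsClosed {x : D | G * x = x} := isClosed_eq (by fun_prop) continuous_id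
  refine closure_minimal ?_ hcl hw
  rintro x ⟨d, rfl⟩
  show G * (r * d) = r * d
  rw [← mul_assoc, hG]

/-- Sandwich of a selfadjoint element between two functions of it. -/
theorem cfc_mul_mul_cfc {L : D} (hL : IsSelfAdjoint L) {g : ℝ → ℝ} (hg : Continuous g) :
    cfc g L * L * cfc g L = cfc (fun t => g t * t * g t) L := by
  rw [cfc_mul (fun t => g t * t) g L (hg.mul continuous_id).continuousOn hg.continuousOn,
    cfc_mul g (fun t => t) L hg.continuousOn continuousOn_id, cfc_id' ℝ L hL]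

variable [PartialOrder D] [StarOrderedRing D]

/-- Norm bound for g(L) u when c E² ≤ L and E u = u. -/
theorem norm_cfc_mul_sq_le {L E u : D} {c M : ℝ} (hc : 0 < c) (hE : IsSelfAdjoint E)
    (hL : 0 ≤ L) (h : c • (E * E) ≤ L) (hu : E * u = u) {g : ℝ → ℝ} (hg : Continuous g)
    (hM : 0 ≤ M) (hgM : ∀ t, 0 ≤ t → t * g t ^ 2 ≤ M) :
    ‖cfc g L * u‖ ^ 2 ≤ c⁻¹ * M * ‖u‖ ^ 2 := by
  have hgs : IsSelfAdjoint (cfc g L) := cfc_predicate g L
  have hEE : E * E ≤ c⁻¹ • L := by
    have := smul_le_smul_of_nonneg_left h (inv_nonneg.2 hc.le)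
    rwa [inv_smul_smul₀ hc.ne'] at this
  have h2 : ‖cfc g L * E‖ ^ 2 ≤ c⁻¹ * M := by
    rw [sq, ← CStarRing.norm_self_mul_star]
    have e1 : cfc g L * E * star (cfc g L * E) = cfc g L * (E * E) * cfc g L := by
      simp only [star_mul, hE.star_eq, hgs.star_eq, mul_assoc]
    have hpos : 0 ≤ cfc g L * E * star (cfc g L * E) := mul_star_self_nonneg _
    rw [e1] at hpos ⊢
    refine (CStarAlgebra.norm_le_norm_of_nonneg_of_le hpos
      (hgs.conjugate_le_conjugate hEE)).trans ?_
    rw [mul_smul_comm, smul_mul_assoc, norm_smul, Real.norm_eq_abs, abs_of_pos (inv_pos.2 hc),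
      cfc_mul_mul_cfc (IsSelfAdjoint.of_nonneg hL) hg]
    refine mul_le_mul_of_nonneg_left (norm_cfc_le hM fun t ht => ?_) (inv_nonneg.2 hc.le)
    have ht0 : 0 ≤ t := spectrum_nonneg_of_nonneg hL ht
    have e : g t * t * g t = t * g t ^ 2 := by ring
    rw [e, Real.norm_eq_abs, abs_of_nonneg (by positivity)]
    exact hgM t ht0
  calc ‖cfc g L * u‖ ^ 2 = ‖cfc g L * E * u‖ ^ 2 := by rw [mul_assoc, hu]
    _ ≤ (‖cfc g L * E‖ * ‖u‖) ^ 2 := pow_le_pow_left₀ (norm_nonneg _) (norm_mul_le _ _) 2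
    _ = ‖cfc g L * E‖ ^ 2 * ‖u‖ ^ 2 := mul_pow _ _ _
    _ ≤ c⁻¹ * M * ‖u‖ ^ 2 := mul_le_mul_of_nonneg_right h2 (sq_nonneg _)

/-- Norm bound for r f(r*r) u. -/
theorem norm_mul_cfc_mul_sq_le {r E u : D} {c M : ℝ} (hc : 0 < c) (hE : IsSelfAdjoint E)
    (h : c • (E * E) ≤ star r * r) (hu : E * u = u) {f : ℝ → ℝ} (hf : Continuous f)
    (hM : 0 ≤ M) (hfM : ∀ t, 0 ≤ t → t ^ 2 * f t ^ 2 ≤ M) :
    ‖r * cfc f (star r * r) * u‖ ^ 2 ≤ c⁻¹ * M * ‖u‖ ^ 2 := by
  set L := star r * r with hL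
  have hL0 : 0 ≤ L := star_mul_self_nonneg r
  have hfs : IsSelfAdjoint (cfc f L) := cfc_predicate f L
  set g : ℝ → ℝ := fun t => Real.sqrt (max t 0) * f t with hg
  have hgc : Continuous g := (Real.continuous_sqrt.comp (continuous_id.max continuous_const)).mul hf
  have hgs : IsSelfAdjoint (cfc g L) := cfc_predicate g L
  have hsq : cfc f L * L * cfc f L = cfc g L * cfc g L := by
    rw [cfc_mul_mul_cfc (IsSelfAdjoint.of_nonneg hL0) hf,
      ← cfc_mul g g L hgc.continuousOn hgc.continuousOn]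
    apply cfc_congr
    intro t ht
    have ht0 : 0 ≤ t := spectrum_nonneg_of_nonneg hL0 ht
    simp only [hg, max_eq_left ht0]
    linear_combination (-(f t * f t)) * Real.mul_self_sqrt ht0
  have h1 : ‖r * cfc f L * u‖ ^ 2 = ‖cfc g L * u‖ ^ 2 := by
    rw [sq, sq, ← CStarRing.norm_star_mul_self, ← CStarRing.norm_star_mul_self]
    congr 1
    calc star (r * cfc f L * u) * (r * cfc f L * u)
        = star u * (cfc f L * L * cfc f L) * u := by
          simp only [star_mul, hfs.star_eq, mul_assoc]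
          rw [← mul_assoc (star r) r, ← hL]
      _ = star (cfc g L * u) * (cfc g L * u) := by
          rw [hsq]; simp only [star_mul, hgs.star_eq, mul_assoc]
  rw [h1]
  refine norm_cfc_mul_sq_le hc hE hL0 h hu hgc hM fun t ht => ?_
  simp only [hg, max_eq_left ht, mul_pow, Real.sq_sqrt ht]
  nlinarith [hfM t ht]

/-- The regularised inverse square root. -/
def douglasFun (δ t : ℝ) : ℝ := (Real.sqrt (max t 0 + δ))⁻¹

theorem continuous_douglasFun {δ : ℝ} (hδ : 0 < δ) : Continuous (douglasFun δ) := by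
  refine Continuous.inv₀ (by fun_prop) fun t => ?_
  have : 0 < max t 0 + δ := add_pos_of_nonneg_of_pos (le_max_right _ _) hδ
  exact (Real.sqrt_pos.2 this).ne'

theorem douglasFun_sq {δ t : ℝ} (hδ : 0 < δ) (ht : 0 ≤ t) :
    douglasFun δ t ^ 2 = (t + δ)⁻¹ := by
  rw [douglasFun, max_eq_left ht, inv_pow, Real.sq_sqrt (by linarith)]

theorem douglasFun_sub_le {δ δ' t : ℝ} (hδ' : 0 < δ') (hle : δ' ≤ δ) (ht : 0 ≤ t) :
    t ^ 2 * (douglasFun δ t - douglasFun δ' t) ^ 2 ≤ δ := by
  have hδ : 0 < δ := hδ'.trans_le hle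
  have ha : 0 < Real.sqrt (t + δ) := Real.sqrt_pos.2 (by linarith)
  have hb : 0 < Real.sqrt (t + δ') := Real.sqrt_pos.2 (by linarith)
  have e : douglasFun δ t - douglasFun δ' t =
      (Real.sqrt (t + δ') - Real.sqrt (t + δ)) / (Real.sqrt (t + δ) * Real.sqrt (t + δ')) := by
    simp only [douglasFun, max_eq_left ht]
    field_simp
  rw [e, div_pow, mul_pow, Real.sq_sqrt (by linarith), Real.sq_sqrt (by linarith),
    mul_div_assoc', div_le_iff₀ (by positivity)]
  have h1 : (Real.sqrt (t + δ') - Real.sqrt (t + δ)) ^ 2 ≤ δ := by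
    have hba : Real.sqrt (t + δ') ≤ Real.sqrt (t + δ) := Real.sqrt_le_sqrt (by linarith)
    nlinarith [Real.sq_sqrt (by linarith : (0:ℝ) ≤ t + δ),
      Real.sq_sqrt (by linarith : (0:ℝ) ≤ t + δ'), mul_le_mul_of_nonneg_right hba hb.le]
  calc t ^ 2 * (Real.sqrt (t + δ') - Real.sqrt (t + δ)) ^ 2 ≤ t ^ 2 * δ :=
        mul_le_mul_of_nonneg_left h1 (sq_nonneg t)
    _ ≤ δ * ((t + δ) * (t + δ')) := by
        nlinarith [mul_nonneg (mul_nonneg hδ.le ht) hδ'.le, mul_nonneg (mul_nonneg hδ.le hδ.le) ht,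
          mul_nonneg (mul_nonneg hδ.le hδ.le) hδ'.le]

/-- The residual u*u - W*W of the regularised factorisation. -/
theorem norm_douglas_residual_le {r E u : D} {c δ : ℝ} (hc : 0 < c) (hE : IsSelfAdjoint E)
    (h : c • (E * E) ≤ star r * r) (hu : E * u = u) (hδ : 0 < δ) :
    ‖star u * u - star (r * cfc (douglasFun δ) (star r * r) * u) *
      (r * cfc (douglasFun δ) (star r * r) * u)‖ ≤ c⁻¹ * δ * ‖u‖ ^ 2 := by
  set L := star r * r with hL
  have hL0 : 0 ≤ L := star_mul_self_nonneg r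
  have hLs : IsSelfAdjoint L := IsSelfAdjoint.of_nonneg hL0
  have hfc : Continuous (douglasFun δ) := continuous_douglasFun hδ
  have hpc : Continuous (fun t => Real.sqrt δ * douglasFun δ t) := continuous_const.mul hfc
  have hfs : IsSelfAdjoint (cfc (douglasFun δ) L) := cfc_predicate _ L
  set P := cfc (fun t => Real.sqrt δ * douglasFun δ t) L with hP
  have hPs : IsSelfAdjoint P := cfc_predicate _ L
  have e2 : P * P = 1 - cfc (douglasFun δ) L * L * cfc (douglasFun δ) L := by
    rw [hP, cfc_mul_mul_cfc hLs hfc, ← cfc_mul _ _ L hpc.continuousOn hpc.continuousOn]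
    have hfun : Continuous fun t => douglasFun δ t * t * douglasFun δ t :=
      (hfc.mul continuous_id).mul hfc
    rw [← cfc_const_one ℝ L hLs, ← cfc_sub (fun _ => (1 : ℝ))
      (fun t => douglasFun δ t * t * douglasFun δ t) L continuousOn_const hfun.continuousOn]
    apply cfc_congr
    intro t ht
    have ht0 : 0 ≤ t := spectrum_nonneg_of_nonneg hL0 ht
    have h3 := douglasFun_sq hδ ht0
    have hd := Real.mul_self_sqrt hδ.le
    have h4 : (t + δ) * (t + δ)⁻¹ = 1 := mul_inv_cancel₀ (by linarith)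
    linear_combination (t + δ) * h3 + (douglasFun δ t ^ 2) * hd + h4
  have e1 : star u * u - star (r * cfc (douglasFun δ) L * u) *
      (r * cfc (douglasFun δ) L * u) = star (P * u) * (P * u) := by
    calc _ = star u * (1 - cfc (douglasFun δ) L * L * cfc (douglasFun δ) L) * u := by
          simp only [star_mul, hfs.star_eq, mul_sub, sub_mul, mul_one, mul_assoc]
          rw [← mul_assoc (star r) r, ← hL]
      _ = star (P * u) * (P * u) := by
          rw [← e2]; simp only [star_mul, hPs.star_eq, mul_assoc]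
  rw [e1, CStarRing.norm_star_mul_self, ← sq, hP]
  refine norm_cfc_mul_sq_le hc hE hL0 h hu hpc hδ.le fun t ht => ?_
  rw [mul_pow, Real.sq_sqrt hδ.le, douglasFun_sq hδ ht]
  have h5 : t * (t + δ)⁻¹ ≤ 1 := by
    rw [← div_eq_mul_inv, div_le_one (by linarith)]; linarith
  nlinarith

/-- If c E² ≤ r*r with c > 0 and E u = u, then u*u = w*w for some w in the closure of r D. -/
theorem exists_douglas {r E u : D} {c : ℝ} (hc : 0 < c) (hE : IsSelfAdjoint E)
    (h : c • (E * E) ≤ star r * r) (hu : E * u = u) :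
    ∃ w : D, star w * w = star u * u ∧ w ∈ closure (Set.range fun d => r * d) := by
  obtain ⟨δ, -, hδpos, hδ0⟩ := exists_seq_strictAnti_tendsto (0 : ℝ)
  obtain ⟨W, hW⟩ : ∃ W : ℕ → D, ∀ k,
      W k = r * cfc (douglasFun (δ k)) (star r * r) * u := ⟨_, fun _ => rfl⟩
  have hlim : Tendsto (fun k => c⁻¹ * δ k * ‖u‖ ^ 2) atTop (𝓝 0) := by
    simpa using (hδ0.const_mul c⁻¹).mul_const (‖u‖ ^ 2)
  have hd : ∀ k l, δ l ≤ δ k → dist (W k) (W l) ^ 2 ≤ c⁻¹ * δ k * ‖u‖ ^ 2 := by
    intro k l hkl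
    rw [dist_eq_norm, hW, hW, ← sub_mul, ← mul_sub,
      ← cfc_sub _ _ _ (continuous_douglasFun (hδpos k)).continuousOn
        (continuous_douglasFun (hδpos l)).continuousOn]
    exact norm_mul_cfc_mul_sq_le hc hE h hu
      ((continuous_douglasFun (hδpos k)).sub (continuous_douglasFun (hδpos l))) (hδpos k).le
      fun t ht => douglasFun_sub_le (hδpos l) hkl ht
  have hcauchy : CauchySeq W := by
    rw [Metric.cauchySeq_iff]
    intro ε hε
    obtain ⟨N, hN⟩ := (hlim.eventually (eventually_lt_nhds (pow_pos hε 2))).exists_forall_of_atTop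
    refine ⟨N, fun m hm n hn => ?_⟩
    refine lt_of_pow_lt_pow_left₀ 2 hε.le ?_
    rcases le_total (δ n) (δ m) with hle | hle
    · exact (hd m n hle).trans_lt (hN m hm)
    · rw [dist_comm]; exact (hd n m hle).trans_lt (hN n hn)
  obtain ⟨w, hw⟩ := cauchySeq_tendsto_of_complete hcauchy
  refine ⟨w, ?_, mem_closure_of_tendsto hw (.of_forall fun k =>
    ⟨cfc (douglasFun (δ k)) (star r * r) * u, by rw [hW, mul_assoc]⟩)⟩
  have l1 : Tendsto (fun k => star u * u - star (W k) * W k) atTop (𝓝 0) :=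
    squeeze_zero_norm (fun k => by rw [hW]; exact norm_douglas_residual_le hc hE h hu (hδpos k))
      hlim
  have l2 : Tendsto (fun k => star u * u - star (W k) * W k) atTop
      (𝓝 (star u * u - star w * w)) := tendsto_const_nhds.sub (hw.star.mul hw)
  exact (sub_eq_zero.1 (tendsto_nhds_unique l2 l1)).symm

end Vale.Agent.P101
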