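import Vale.Agent.P101.CombineN

/-! Combining finitely many commuting order zero families: lower bounds for the support and
upper bounds off the distinguished column. -/

noncomputable section

open Finset

namespace Vale.Agent.P101.CombineN

variable {D : Type*} [CStarAlgebra D] {n : ℕ} (Fs : ℕ → Fin n → Fin n → D)

/-- The combination of the first k families. -/
def fold : ℕ → Fin n → Fin n → D
  | 0 => fun _ _ => 0
  | k + 1 => combine (fold k) (Fs k)

/-- A sequence of pairwise commuting star families of order zero. -/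
structure Good : Prop where
  oz : ∀ a, IsOrderZero (Fs a)
  sa : ∀ a i j, star (Fs a i j) = Fs a j i
  comm : ∀ a b, a ≠ b → ∀ i j k l, Commute (Fs a i j) (Fs b k l)

variable {Fs}

theorem commute_comb {x a b w : D} {E E' : Fin n → Fin n → D} (ha : Commute x a)
    (hb : Commute x b) (hw : Commute x w) (hE : ∀ i j, Commute x (E i j))
    (hE' : ∀ i j, Commute x (E' i j)) (i j : Fin n) : Commute x (comb E E' a b w i j) :=
  ((ha.mul_right (hE i j)).add_right (hb.mul_right (hE' i j))).add_right
    (hw.mul_right ((Commute.sum_right _ _ _ fun p _ => (hE p j).mul_right (hE' i p)).sub_right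
      (Commute.sum_right _ _ _ fun q _ => (hE i q).mul_right (hE' q j))))

theorem commute_fold {x : D} : ∀ {k : ℕ}, (∀ a < k, ∀ i j, Commute x (Fs a i j)) →
    ∀ i j, Commute x (fold Fs k i j)
  | 0, _, i, j => by simp only [fold]; exact Commute.zero_right x
  | k + 1, h, i, j => by
    have h1 := commute_fold (k := k) fun a ha => h a (Nat.lt_succ_of_lt ha)
    have h2 := h k (Nat.lt_succ_self k)
    have s1 : Commute x (supp (fold Fs k)) := Commute.sum_right _ _ _ fun i _ => h1 i i
    have s2 : Commute x (supp (Fs k)) := Commute.sum_right _ _ _ fun i _ => h2 i i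
    simp only [fold, combine]
    exact commute_comb (s1.pow_right 3) (s2.pow_right 3) ((s1.mul_right s2).smul_right _) h1 h2 i j

theorem commute_supp_fold {x : D} {k : ℕ} (h : ∀ a < k, ∀ i j, Commute x (Fs a i j)) :
    Commute x (supp (fold Fs k)) :=
  Commute.sum_right _ _ _ fun i _ => commute_fold h i i

variable (hG : Good Fs)
include hG

theorem Good.fold_comm (k : ℕ) (i j i' j' : Fin n) : Commute (fold Fs k i j) (Fs k i' j') :=
  (commute_fold (fun a ha a' b' => (hG.comm k a (Nat.ne_of_gt ha) i' j' a' b')) i j).symm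

theorem Good.supp_sa (a : ℕ) : IsSelfAdjoint (supp (Fs a)) := by
  simp [IsSelfAdjoint, supp, star_sum, hG.sa]

theorem Good.fold_oz : ∀ k, IsOrderZero (fold Fs k)
  | 0 => ⟨fun i j k l => by simp [fold]⟩
  | k + 1 => combine_isOrderZero (Good.fold_oz k) (hG.oz k) (hG.fold_comm k)

theorem Good.fold_sa : ∀ k i j, star (fold Fs k i j) = fold Fs k j i
  | 0, i, j => by simp [fold]
  | k + 1, i, j =>
    star_combine (hG.fold_comm k) (hG.fold_oz k) (hG.oz k) (Good.fold_sa k) (hG.sa k) i j

theorem Good.supp_fold_sa (k : ℕ) : IsSelfAdjoint (supp (fold Fs k)) := by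
  simp [IsSelfAdjoint, supp, star_sum, hG.fold_sa]

omit hG in
theorem supp_fold_succ (k : ℕ) :
    supp (fold Fs (k + 1)) = supp (fold Fs k) ^ 4 + supp (Fs k) ^ 4 :=
  supp_combine _ _

section Order

variable [PartialOrder D] [StarOrderedRing D]

omit hG in
theorem pow_four_nonneg {x : D} (hx : IsSelfAdjoint x) : 0 ≤ x ^ 4 := by
  have h : x ^ 4 = star (x ^ 2) * x ^ 2 := by rw [star_pow, hx.star_eq, ← pow_add]
  rw [h]
  exact star_mul_self_nonneg _

theorem Good.supp_fold_nonneg : ∀ k, 0 ≤ supp (fold Fs k)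
  | 0 => by simp [supp, fold]
  | k + 1 => by
    rw [supp_fold_succ]
    exact add_nonneg (pow_four_nonneg (hG.supp_fold_sa k)) (pow_four_nonneg (hG.supp_sa k))

/-- H is at least c where the self-adjoint X lives. -/
def Low (c : ℝ) (H X : D) : Prop := 0 ≤ (H - algebraMap ℝ D c) * (X * X)

theorem Good.lower : ∀ (k a : ℕ), a < k → ∀ δ : ℝ, 0 < δ → ∃ c : ℝ, 0 < c ∧ ∀ φ : ℝ → ℝ,
    Continuous φ → (∀ t, φ t ≠ 0 → δ ≤ |t|) →
      Low c (supp (fold Fs k)) (cfc φ (supp (Fs a))) := by
  intro k
  induction k with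
  | zero => intro a ha; exact absurd ha (Nat.not_lt_zero a)
  | succ k ih =>
    intro a ha δ hδ
    have hs : ∀ φ : ℝ → ℝ, IsSelfAdjoint (cfc φ (supp (Fs a))) := fun φ => cfc_predicate φ _
    have comm : ∀ b, ∀ φ : ℝ → ℝ, Commute (supp (Fs b)) (cfc φ (supp (Fs a))) := fun b φ => by
      refine (Commute.cfc_real ?_ φ).symm
      rcases eq_or_ne a b with rfl | hab
      · exact Commute.refl _
      · exact Commute.sum_left _ _ _ fun i _ => Commute.sum_right _ _ _ fun j _ =>
          hG.comm a b hab i i j j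
    have commF : ∀ φ : ℝ → ℝ, Commute (supp (fold Fs k)) (cfc φ (supp (Fs a))) := fun φ => by
      refine (Commute.sum_left _ _ _ fun i _ => ?_)
      refine (commute_fold (fun b _ i' j' => ?_) i i).symm
      refine Commute.cfc_real ?_ φ
      rcases eq_or_ne a b with rfl | hab
      · exact (hG.oz a).commute_supp i' j'
      · exact Commute.sum_left _ _ _ fun j _ => hG.comm a b hab j j i' j'
    rcases Nat.lt_succ_iff_lt_or_eq.1 ha with h | h
    · obtain ⟨c, hc, hlow⟩ := ih a h δ hδ
      refine ⟨c ^ 4, by positivity, fun φ hφ hsupp => ?_⟩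
      have h0 := hlow φ hφ hsupp
      set H := supp (fold Fs k) with hH
      set X := cfc φ (supp (Fs a))
      set C := algebraMap ℝ D c with hC
      have hCn : 0 ≤ C := algebraMap_nonneg D hc.le
      have hHC : Commute H C := (Algebra.commutes c H).symm
      have e1 : H ^ 4 - C ^ 4 = (H + C) * (H * H + C * C) * (H - C) := by
        simp only [pow_succ, pow_zero, one_mul, mul_sub, mul_add, add_mul, mul_assoc, hHC.eq,
          hHC.left_comm]
        abel
      have hH0 : 0 ≤ H := hG.supp_fold_nonneg k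
      have hK : 0 ≤ (H + C) * (H * H + C * C) :=
        Commute.mul_nonneg (add_nonneg hH0 hCn)
          (add_nonneg (Commute.mul_nonneg hH0 hH0 (Commute.refl H))
            (Commute.mul_nonneg hCn hCn (Commute.refl C)))
          (((Commute.refl H).mul_right (Commute.refl H)).add_right (hHC.mul_right hHC) |>.add_left
            ((hHC.symm.mul_right hHC.symm).add_right ((Commute.refl C).mul_right (Commute.refl C))))
      have hcomm : Commute ((H + C) * (H * H + C * C)) ((H - C) * (X * X)) := by
        have hX : Commute H X := commF φ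
        have hX' : Commute C X := Algebra.commutes c X
        have h1 : Commute H ((H - C) * (X * X)) :=
          ((Commute.refl H).sub_right hHC).mul_right (hX.mul_right hX)
        have h2 : Commute C ((H - C) * (X * X)) := Algebra.commutes c _
        exact (h1.add_left h2).mul_left ((h1.mul_left h1).add_left (h2.mul_left h2))
      have h4 : 0 ≤ supp (Fs k) ^ 4 * (X * X) :=
        Commute.mul_nonneg (pow_four_nonneg (hG.supp_sa k)) (hs φ).mul_self_nonneg
          (((comm k φ).mul_right (comm k φ)).pow_left 4)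
      rw [Low, supp_fold_succ, ← hH, map_pow, ← hC, add_sub_right_comm, add_mul, e1, mul_assoc]
      exact add_nonneg (Commute.mul_nonneg hK h0 hcomm) h4
    · subst h
      refine ⟨δ ^ 4, by positivity, fun φ hφ hsupp => ?_⟩
      set H := supp (fold Fs a)
      set h := supp (Fs a) with hh
      set X := cfc φ h
      have hs' : IsSelfAdjoint h := hG.supp_sa a
      have e2 : (h ^ 4 - algebraMap ℝ D (δ ^ 4)) * (X * X)
          = cfc (fun t => (t ^ 4 - δ ^ 4) * (φ t * φ t)) h := by
        rw [cfc_mul (fun t => t ^ 4 - δ ^ 4) (fun t => φ t * φ t) h,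
          cfc_sub (fun t : ℝ => t ^ 4) (fun _ => δ ^ 4) h, cfc_pow_id h 4, cfc_const (δ ^ 4) h,
          cfc_mul φ φ h]
      rw [Low, supp_fold_succ, add_sub_assoc, add_mul]
      refine add_nonneg (Commute.mul_nonneg (pow_four_nonneg (hG.supp_fold_sa a))
        (hs φ).mul_self_nonneg (((commF φ).mul_right (commF φ)).pow_left 4)) ?_
      rw [← hh, e2]
      refine cfc_nonneg fun t _ => ?_
      by_cases ht : φ t = 0
      · simp [ht]
      · refine mul_nonneg (sub_nonneg.2 ?_) (mul_self_nonneg _)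
        calc δ ^ 4 ≤ |t| ^ 4 := pow_le_pow_left₀ hδ.le (hsupp t ht) 4
          _ = t ^ 4 := (by norm_num : Even 4).pow_abs t

omit hG in
/-- A function of H supported strictly below c kills X. -/
theorem eq_zero_of_low {H X : D} (hH : IsSelfAdjoint H) (hX : IsSelfAdjoint X) (hHX : Commute H X)
    {c c' : ℝ} (hcc : c' < c) (h : Low c H X) {ψ : ℝ → ℝ} (hψ : Continuous ψ)
    (h0 : ∀ t, c' ≤ t → ψ t = 0) : cfc ψ H * X = 0 := by
  have hp : IsSelfAdjoint (cfc ψ H) := cfc_predicate ψ H
  have hpX : Commute (cfc ψ H) X := Commute.cfc_real hHX ψ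
  set Z := star (cfc ψ H * X) * (cfc ψ H * X) with hZ
  have hZe : Z = X * cfc (fun t => ψ t * ψ t) H * X := by
    rw [hZ, star_mul, hp.star_eq, hX.star_eq, cfc_mul ψ ψ H]
    noncomm_ring
  have hup : 0 ≤ cfc ψ H * ((H - algebraMap ℝ D c) * (X * X)) * cfc ψ H := by
    have := star_left_conjugate_nonneg h (cfc ψ H)
    rwa [hp.star_eq] at this
  have hlo : 0 ≤ cfc (fun t => ψ t * ψ t * (c' - t)) H := by
    refine cfc_nonneg fun t _ => ?_
    rcases le_or_gt c' t with ht | ht
    · simp [h0 t ht]
    · exact mul_nonneg (mul_self_nonneg _) (sub_nonneg.2 ht.le)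
  have hlo' : 0 ≤ X * cfc (fun t => ψ t * ψ t * (c' - t)) H * X := by
    have := star_left_conjugate_nonneg hlo X
    rwa [hX.star_eq] at this
  have hup' : cfc ψ H * ((H - algebraMap ℝ D c) * (X * X)) * cfc ψ H
      = X * cfc (fun t => ψ t * ψ t * (t - c)) H * X := by
    have hd : Commute (H - algebraMap ℝ D c) X := hHX.sub_left (Algebra.commutes c X)
    rw [cfc_mul (fun t => ψ t * ψ t) (fun t => t - c) H, cfc_mul ψ ψ H,
      cfc_sub (fun t : ℝ => t) (fun _ => c) H, cfc_id' ℝ H, cfc_const c H]
    have hd' : Commute (cfc ψ H) (H - algebraMap ℝ D c) :=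
      Commute.cfc_real ((Commute.refl H).sub_right (Algebra.commutes c H).symm) ψ
    simp only [mul_assoc, hpX.eq, hd.eq, hd'.eq, hpX.left_comm, hd.left_comm, hd'.left_comm]
  have hsum : X * cfc (fun t => ψ t * ψ t * (c' - t)) H * X
      + X * cfc (fun t => ψ t * ψ t * (t - c)) H * X = (c' - c) • Z := by
    rw [hZe, ← add_mul, ← mul_add, ← cfc_add (a := H) (fun t => ψ t * ψ t * (c' - t))
      (fun t => ψ t * ψ t * (t - c)), ← smul_mul_assoc, ← mul_smul_comm,
      ← cfc_smul (c' - c) (fun t => ψ t * ψ t) H]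
    congr 2
    refine cfc_congr fun t _ => ?_
    rw [smul_eq_mul]
    ring
  have hnonneg : 0 ≤ (c' - c) • Z := hsum ▸ add_nonneg hlo' (hup' ▸ hup)
  have hZ0 : Z ≤ 0 := by
    have h1 : (c - c') • Z ≤ 0 := by
      have := neg_nonpos.2 hnonneg
      rwa [← neg_smul, neg_sub] at this
    have h2 := smul_nonpos_of_nonneg_of_nonpos (inv_nonneg.2 (sub_nonneg.2 hcc.le)) h1
    rwa [smul_smul, inv_mul_cancel₀ (sub_pos.2 hcc).ne', one_smul] at h2
  exact CStarRing.star_mul_self_eq_zero_iff _ |>.1 (le_antisymm hZ0 (star_mul_self_nonneg _))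

end Order

/-- Off the distinguished column the combination is small where all the families are. -/
theorem Good.small (z : Fin n) : ∀ k, ∃ C : ℝ, 0 ≤ C ∧ ∀ (P : D) (θ : ℝ), 0 ≤ θ →
    (∀ a < k, ∀ i j, j ≠ z → ‖Fs a i j * P‖ ≤ θ) → ∀ i j, j ≠ z → ‖fold Fs k i j * P‖ ≤ C * θ
  | 0 => ⟨0, le_rfl, fun P θ _ _ i j _ => by simp [fold]⟩
  | k + 1 => by
    obtain ⟨C, hC, ih⟩ := Good.small z k
    set G := fold Fs k with hGdef
    set F := Fs k with hFdef
    set a := supp G ^ 3
    set b := supp F ^ 3
    set w := Complex.I • (supp G * supp F)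
    set K := (∑ p, ∑ q, ‖F p q‖) with hK
    set L := (∑ p, ∑ q, ‖G p q‖) with hL
    have hKb : ∀ p q, ‖F p q‖ ≤ K := fun p q =>
      (Finset.single_le_sum (fun q _ => norm_nonneg (F p q)) (Finset.mem_univ q)).trans
        (Finset.single_le_sum (fun p _ => Finset.sum_nonneg fun q _ => norm_nonneg (F p q))
          (Finset.mem_univ p))
    have hLb : ∀ p q, ‖G p q‖ ≤ L := fun p q =>
      (Finset.single_le_sum (fun q _ => norm_nonneg (G p q)) (Finset.mem_univ q)).trans
        (Finset.single_le_sum (fun p _ => Finset.sum_nonneg fun q _ => norm_nonneg (G p q))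
          (Finset.mem_univ p))
    have hK0 : 0 ≤ K := Finset.sum_nonneg fun p _ => Finset.sum_nonneg fun q _ => norm_nonneg _
    have hL0 : 0 ≤ L := Finset.sum_nonneg fun p _ => Finset.sum_nonneg fun q _ => norm_nonneg _
    refine ⟨‖a‖ * C + ‖b‖ + ‖w‖ * ((n : ℝ) * (K * C) + (n : ℝ) * L), by positivity,
      fun P θ hθ hP i j hj => ?_⟩
    have e1 := ih P θ hθ (fun a ha => hP a (Nat.lt_succ_of_lt ha))
    have e2 := hP k (Nat.lt_succ_self k)
    have eL : ‖left G F i j * P‖ ≤ (n : ℝ) * (K * (C * θ)) := by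
      rw [left, Finset.sum_mul]
      refine (norm_sum_le _ _).trans ?_
      have : ∀ p ∈ (Finset.univ : Finset (Fin n)), ‖G p j * F i p * P‖ ≤ K * (C * θ) :=
        fun p _ => by
          rw [(hG.fold_comm k p j i p).eq, mul_assoc]
          exact (norm_mul_le _ _).trans (mul_le_mul (hKb i p) (e1 p j hj) (norm_nonneg _) hK0)
      simpa using Finset.sum_le_sum this
    have eR : ‖right G F i j * P‖ ≤ (n : ℝ) * (L * θ) := by
      rw [right, Finset.sum_mul]
      refine (norm_sum_le _ _).trans ?_
      have : ∀ q ∈ (Finset.univ : Finset (Fin n)), ‖G i q * F q j * P‖ ≤ L * θ := fun q _ => by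
        rw [mul_assoc]
        exact (norm_mul_le _ _).trans (mul_le_mul (hLb i q) (e2 q j hj) (norm_nonneg _) hL0)
      simpa using Finset.sum_le_sum this
    calc ‖fold Fs (k + 1) i j * P‖
        = ‖a * (G i j * P) + b * (F i j * P) + w * (left G F i j * P - right G F i j * P)‖ := by
          rw [fold, combine, comb, add_mul, add_mul, mul_assoc, mul_assoc, mul_assoc, sub_mul]
      _ ≤ ‖a‖ * (C * θ) + ‖b‖ * θ + ‖w‖ * ((n : ℝ) * (K * (C * θ)) + (n : ℝ) * (L * θ)) := by
          refine (norm_add₃_le).trans (add_le_add (add_le_add ?_ ?_) ?_)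
          · exact (norm_mul_le _ _).trans (mul_le_mul_of_nonneg_left (e1 i j hj) (norm_nonneg _))
          · exact (norm_mul_le _ _).trans (mul_le_mul_of_nonneg_left (e2 i j hj) (norm_nonneg _))
          · exact (norm_mul_le _ _).trans (mul_le_mul_of_nonneg_left
              ((norm_sub_le _ _).trans (add_le_add eL eR)) (norm_nonneg _))
      _ = _ := by ring

end Vale.Agent.P101.CombineN
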